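import Mathlib

/-!
One-dimensional maximum principle kit (first touching point on a moving interval).
-/

set_option autoImplicit false

open Set Filter Topology

namespace Crest.Agent.N207.S.MP

/-- The space-time region `t0 ≤ t ≤ t1`, `l t ≤ x ≤ r t`. -/
def Reg (l r : ℝ → ℝ) (t0 t1 : ℝ) : Set (ℝ × ℝ) :=
  {p | t0 ≤ p.1 ∧ p.1 ≤ t1 ∧ l p.1 ≤ p.2 ∧ p.2 ≤ r p.1}


theorem isCompact_Reg {l r : ℝ → ℝ} {t0 t1 : ℝ} (hl : ContinuousOn l (Icc t0 t1))
    (hr : ContinuousOn r (Icc t0 t1)) : IsCompact (Reg l r t0 t1) := by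
  obtain ⟨A, hA⟩ := (isCompact_Icc.image_of_continuousOn hl).bddBelow
  obtain ⟨B, hB⟩ := (isCompact_Icc.image_of_continuousOn hr).bddAbove
  have hsub : Reg l r t0 t1 ⊆ Icc t0 t1 ×ˢ Icc A B := by
    rintro ⟨t, x⟩ ⟨h0, h1, h2, h3⟩
    exact ⟨⟨h0, h1⟩, (hA ⟨t, ⟨h0, h1⟩, rfl⟩).trans h2, h3.trans (hB ⟨t, ⟨h0, h1⟩, rfl⟩)⟩
  refine (isCompact_Icc.prod isCompact_Icc).of_isClosed_subset ?_ hsub
  have hc : IsClosed (Icc t0 t1 ×ˢ (univ : Set ℝ)) := isClosed_Icc.prod isClosed_univ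
  have h1 : ContinuousOn (fun p : ℝ × ℝ => l p.1) (Icc t0 t1 ×ˢ (univ : Set ℝ)) :=
    hl.comp continuousOn_fst fun p hp => hp.1
  have h2 : ContinuousOn (fun p : ℝ × ℝ => r p.1) (Icc t0 t1 ×ˢ (univ : Set ℝ)) :=
    hr.comp continuousOn_fst fun p hp => hp.1
  have e : Reg l r t0 t1 = {p ∈ Icc t0 t1 ×ˢ (univ : Set ℝ) | l p.1 ≤ p.2} ∩
      {p ∈ Icc t0 t1 ×ˢ (univ : Set ℝ) | p.2 ≤ r p.1} := by
    ext ⟨t, x⟩
    simp only [Reg, mem_ofPred_eq, mem_inter_iff, mem_prod, mem_Icc, mem_univ, and_true]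
    tauto
  rw [e]
  exact (hc.isClosed_le h1 continuousOn_snd).inter (hc.isClosed_le continuousOn_snd h2)

/-- First touching: if finitely many continuous functions are negative at the initial time and no
point can be a first zero, they are negative on the whole region. -/
theorem neg_of_no_touch {ι : Type*} [Finite ι] {l r : ℝ → ℝ} {t0 t1 : ℝ}
    (hl : ContinuousOn l (Icc t0 t1)) (hr : ContinuousOn r (Icc t0 t1))
    (F : ι → ℝ → ℝ → ℝ)
    (hF : ∀ i, ContinuousOn (fun p : ℝ × ℝ => F i p.1 p.2) (Reg l r t0 t1))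
    (h0 : ∀ i x, l t0 ≤ x → x ≤ r t0 → F i t0 x < 0)
    (htouch : ∀ i t x, t0 < t → t ≤ t1 → l t ≤ x → x ≤ r t → F i t x = 0 →
      (∀ j s y, t0 ≤ s → s ≤ t → l s ≤ y → y ≤ r s → F j s y ≤ 0) → False)
    (hlr : ∀ t, t0 ≤ t → t ≤ t1 → l t < r t) :
    ∀ i t x, t0 ≤ t → t ≤ t1 → l t ≤ x → x ≤ r t → F i t x < 0 := by
  by_contra hcon
  push Not at hcon
  obtain ⟨i1, s1, x1, a1, a2, a3, a4, a5⟩ := hcon
  have hK := isCompact_Reg hl hr
  set B : Set (ℝ × ℝ) := ⋃ i, {p ∈ Reg l r t0 t1 | 0 ≤ F i p.1 p.2} with hB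
  have hBc : IsCompact B := by
    refine hK.of_isClosed_subset (isClosed_iUnion_of_finite fun i => ?_) ?_
    · exact hK.isClosed.isClosed_le continuousOn_const (hF i)
    · exact iUnion_subset fun i p hp => hp.1
  have hBn : B.Nonempty := ⟨(s1, x1), mem_iUnion.2 ⟨i1, ⟨a1, a2, a3, a4⟩, a5⟩⟩
  obtain ⟨⟨t, x⟩, hp, hmin⟩ := hBc.exists_isMinOn hBn continuousOn_fst
  obtain ⟨i, ⟨b1, b2, b3, b4⟩, b5⟩ := mem_iUnion.1 hp
  simp only at b1 b2 b3 b4 b5
  have hlt : ∀ j s y, t0 ≤ s → s < t → l s ≤ y → y ≤ r s → F j s y < 0 := by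
    intro j s y c1 c2 c3 c4
    by_contra hn
    have : (s, y) ∈ B := mem_iUnion.2 ⟨j, ⟨c1, (c2.le.trans b2), c3, c4⟩, not_lt.1 hn⟩
    have := hmin this
    simp only [mem_ofPred_eq] at this
    linarith
  have ht0 : t0 < t := by
    rcases b1.eq_or_lt with h | h
    · subst h; exact absurd (h0 i x b3 b4) (not_lt.2 b5)
    · exact h
  -- at time `t` all functions are `≤ 0` by continuity along the segment parametrisation
  have hle : ∀ j y, l t ≤ y → y ≤ r t → F j t y ≤ 0 := by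
    intro j y c3 c4
    have hd : 0 < r t - l t := sub_pos.2 (hlr t b1 b2)
    set θ : ℝ := (y - l t) / (r t - l t) with hθ
    have hθ0 : 0 ≤ θ := div_nonneg (sub_nonneg.2 c3) hd.le
    have hθ1 : θ ≤ 1 := (div_le_one hd).2 (by linarith)
    set γ : ℝ → ℝ × ℝ := fun s => (s, l s + θ * (r s - l s)) with hγ
    have hγc : ContinuousOn γ (Icc t0 t1) :=
      continuousOn_id.prodMk (hl.add (continuousOn_const.mul (hr.sub hl)))
    have hγm : ∀ s ∈ Icc t0 t1, γ s ∈ Reg l r t0 t1 := by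
      intro s hs
      have := hlr s hs.1 hs.2
      refine ⟨hs.1, hs.2, ?_, ?_⟩
      · show l s ≤ l s + θ * (r s - l s)
        nlinarith
      · show l s + θ * (r s - l s) ≤ r s
        nlinarith
    have hc : ContinuousOn (fun s => F j (γ s).1 (γ s).2) (Icc t0 t1) := (hF j).comp hγc hγm
    have hγt : γ t = (t, y) := by
      simp only [hγ, hθ, Prod.mk.injEq, true_and]
      field_simp
      ring
    have hcw : ContinuousWithinAt (fun s => F j (γ s).1 (γ s).2) (Ico t0 t) t :=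
      (hc t ⟨b1, b2⟩).mono fun s hs => ⟨hs.1, hs.2.le.trans b2⟩
    have hne : (𝓝[Ico t0 t] t).NeBot := by
      rw [← mem_closure_iff_nhdsWithin_neBot, closure_Ico ht0.ne]
      exact ⟨ht0.le, le_rfl⟩
    have := le_of_tendsto hcw (b := 0) (eventually_nhdsWithin_of_forall fun s hs => by
      have hm := hγm s ⟨hs.1, hs.2.le.trans b2⟩
      exact (hlt j s _ hs.1 hs.2 hm.2.2.1 hm.2.2.2).le)
    have e2 : F j (γ t).1 (γ t).2 ≤ 0 := this
    rw [hγt] at e2
    exact e2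
  refine htouch i t x ht0 b2 b3 b4 (le_antisymm (hle i x b3 b4) b5) ?_
  intro j s y c1 c2 c3 c4
  rcases c2.eq_or_lt with h | h
  · subst h; exact hle j y c3 c4
  · exact (hlt j s y c1 h c3 c4).le

/-- Time derivative at a first touching point. -/
theorem deriv_nonneg_of_past {f : ℝ → ℝ} {t d a : ℝ} (ha : a < t)
    (hf : HasDerivWithinAt f d (Iic t) t) (h0 : f t = 0) (hp : ∀ s, a < s → s < t → f s ≤ 0) :
    0 ≤ d := by
  have h1 : HasDerivWithinAt f d (Ioo a t) t := hf.mono fun s hs => hs.2.le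
  have hne : (𝓝[Ioo a t] t).NeBot := by
    rw [← mem_closure_iff_nhdsWithin_neBot, closure_Ioo ha.ne]
    exact ⟨ha.le, le_rfl⟩
  have hnot : t ∉ Ioo a t := fun h => lt_irrefl _ h.2
  have h2 := (hasDerivWithinAt_iff_tendsto_slope' hnot).1 h1
  refine ge_of_tendsto h2 (eventually_nhdsWithin_of_forall fun s hs => ?_)
  rw [slope_def_field, h0, sub_zero]
  exact div_nonneg_of_nonpos (hp s hs.1 hs.2) (by linarith [hs.2])

/-- One-sided space derivative at a left end point maximum. -/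
theorem deriv_nonpos_of_right {f : ℝ → ℝ} {x d b : ℝ} (hb : x < b)
    (hf : HasDerivWithinAt f d (Icc x b) x) (h0 : f x = 0) (hp : ∀ y, x < y → y < b → f y ≤ 0) :
    d ≤ 0 := by
  have h1 : HasDerivWithinAt f d (Ioo x b) x := hf.mono Ioo_subset_Icc_self
  have hne : (𝓝[Ioo x b] x).NeBot := by
    rw [← mem_closure_iff_nhdsWithin_neBot, closure_Ioo hb.ne]
    exact ⟨le_rfl, hb.le⟩
  have hnot : x ∉ Ioo x b := fun h => lt_irrefl _ h.1
  have h2 := (hasDerivWithinAt_iff_tendsto_slope' hnot).1 h1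
  refine le_of_tendsto h2 (eventually_nhdsWithin_of_forall fun s hs => ?_)
  rw [slope_def_field, h0, sub_zero]
  exact div_nonpos_of_nonpos_of_nonneg (hp s hs.1 hs.2) (by linarith [hs.1])

/-- One-sided space derivative at a right end point maximum. -/
theorem deriv_nonneg_of_left {f : ℝ → ℝ} {x d a : ℝ} (ha : a < x)
    (hf : HasDerivWithinAt f d (Icc a x) x) (h0 : f x = 0) (hp : ∀ y, a < y → y < x → f y ≤ 0) :
    0 ≤ d := by
  have h1 : HasDerivWithinAt f d (Ioo a x) x := hf.mono Ioo_subset_Icc_self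
  have hne : (𝓝[Ioo a x] x).NeBot := by
    rw [← mem_closure_iff_nhdsWithin_neBot, closure_Ioo ha.ne]
    exact ⟨ha.le, le_rfl⟩
  have hnot : x ∉ Ioo a x := fun h => lt_irrefl _ h.2
  have h2 := (hasDerivWithinAt_iff_tendsto_slope' hnot).1 h1
  refine ge_of_tendsto h2 (eventually_nhdsWithin_of_forall fun s hs => ?_)
  rw [slope_def_field, h0, sub_zero]
  exact div_nonneg_of_nonpos (hp s hs.1 hs.2) (by linarith [hs.2])

/-- Interior maximum: first derivative zero and second derivative nonpositive. -/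
theorem interior_max {f f1 : ℝ → ℝ} {x a b d2 : ℝ} (ha : a < x) (hb : x < b)
    (hf : ∀ y, a < y → y < b → HasDerivAt f (f1 y) y) (hf1 : HasDerivAt f1 d2 x)
    (h0 : f x = 0) (hp : ∀ y, a < y → y < b → f y ≤ 0) : f1 x = 0 ∧ d2 ≤ 0 := by
  have hmax : IsLocalMax f x := by
    filter_upwards [Ioo_mem_nhds ha hb] with y hy
    rw [h0]; exact hp y hy.1 hy.2
  have e1 : f1 x = 0 := hmax.hasDerivAt_eq_zero (hf x ha hb)
  refine ⟨e1, ?_⟩
  by_contra hpos
  push Not at hpos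
  -- `f1 > 0` just to the right of `x`, so `f` increases there
  have hs := (hasDerivAt_iff_tendsto_slope.1 hf1).eventually (lt_mem_nhds hpos)
  rw [eventually_nhdsWithin_iff] at hs
  obtain ⟨ε, hε, hball⟩ := Metric.eventually_nhds_iff.1 hs
  set c : ℝ := min (x + ε / 2) ((x + b) / 2) with hc
  have hxc : x < c := lt_min (by linarith) (by linarith)
  have hcb : c < b := (min_le_right _ _).trans_lt (by linarith)
  have hcε : c ≤ x + ε / 2 := min_le_left _ _
  obtain ⟨y, hy, hyd⟩ := exists_hasDerivAt_eq_slope f f1 hxc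
    (fun y hy => (hf y (ha.trans_le hy.1) (hy.2.trans_lt hcb)).continuousAt.continuousWithinAt)
    (fun y hy => hf y (ha.trans hy.1) (hy.2.trans hcb))
  have hy1 : 0 < slope f1 x y := hball (by
    rw [Real.dist_eq, abs_lt]; constructor <;> linarith [hy.1, hy.2]) (ne_of_gt hy.1)
  rw [slope_def_field, e1, sub_zero] at hy1
  have hy2 : 0 < f1 y := by
    have := mul_pos hy1 (sub_pos.2 hy.1)
    rwa [div_mul_cancel₀ _ (sub_pos.2 hy.1).ne'] at this
  rw [hyd, h0, sub_zero] at hy2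
  have := hp c (ha.trans hxc) hcb
  have h3 : f c / (c - x) ≤ 0 := div_nonpos_of_nonpos_of_nonneg this (by linarith)
  linarith

/-- `Past F l r t0 t`: all members of the family are `≤ 0` on the region up to time `t`. -/
def Past {ι : Type*} (F : ι → ℝ → ℝ → ℝ) (l r : ℝ → ℝ) (t0 t : ℝ) : Prop :=
  ∀ j s y, t0 ≤ s → s ≤ t → l s ≤ y → y ≤ r s → F j s y ≤ 0

/-- Jet conditions at an interior first touching point. -/
theorem touch_interior {f ft fx fxx : ℝ → ℝ → ℝ} {l r : ℝ → ℝ} {t0 t1 t x : ℝ}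
    (hl : ContinuousOn l (Icc t0 t1)) (hr : ContinuousOn r (Icc t0 t1))
    (h0 : t0 < t) (h1 : t ≤ t1) (hx0 : l t < x) (hx1 : x < r t)
    (ht : HasDerivWithinAt (fun s => f s x) (ft t x) (Iic t) t)
    (hx : ∀ y, l t < y → y < r t → HasDerivAt (f t) (fx t y) y)
    (hxx : HasDerivAt (fx t) (fxx t x) x) (hz : f t x = 0)
    (hp : ∀ s y, t0 ≤ s → s ≤ t → l s ≤ y → y ≤ r s → f s y ≤ 0) :
    0 ≤ ft t x ∧ fx t x = 0 ∧ fxx t x ≤ 0 := by
  refine ⟨?_, interior_max hx0 hx1 hx hxx hz fun y a b => hp t y h0.le le_rfl a.le b.le⟩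
  have hm : t ∈ Icc t0 t1 := ⟨h0.le, h1⟩
  have e1 := (hl t hm).eventually (gt_mem_nhds hx0)
  have e2 := (hr t hm).eventually (lt_mem_nhds hx1)
  have e3 := e1.and e2
  rw [eventually_nhdsWithin_iff] at e3
  obtain ⟨ε, hε, hball⟩ := Metric.eventually_nhds_iff.1 e3
  refine deriv_nonneg_of_past (a := max t0 (t - ε)) (max_lt h0 (by linarith)) ht hz ?_
  intro s hs1 hs2
  have a1 : t0 < s := (le_max_left _ _).trans_lt hs1
  have a2 : t - ε < s := (le_max_right _ _).trans_lt hs1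
  have := hball (y := s) (by rw [Real.dist_eq, abs_lt]; constructor <;> linarith)
    ⟨a1.le, hs2.le.trans h1⟩
  exact hp s x a1.le hs2.le this.1.le this.2.le

/-- Maximum principle for a finite family on a moving interval; both ends are treated by the
caller. -/
theorem mp_family {ι : Type*} [Finite ι] {l r : ℝ → ℝ} {t0 t1 : ℝ}
    (hl : ContinuousOn l (Icc t0 t1)) (hr : ContinuousOn r (Icc t0 t1))
    (hlr : ∀ t, t0 ≤ t → t ≤ t1 → l t < r t) (F Ft Fx Fxx : ι → ℝ → ℝ → ℝ)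
    (hF : ∀ i, ContinuousOn (fun p : ℝ × ℝ => F i p.1 p.2) (Reg l r t0 t1))
    (ht : ∀ i t x, t0 < t → t ≤ t1 → l t < x → x < r t →
      HasDerivWithinAt (fun s => F i s x) (Ft i t x) (Iic t) t)
    (hx : ∀ i t x, t0 < t → t ≤ t1 → l t < x → x < r t → HasDerivAt (F i t) (Fx i t x) x)
    (hxx : ∀ i t x, t0 < t → t ≤ t1 → l t < x → x < r t → HasDerivAt (Fx i t) (Fxx i t x) x)
    (h0 : ∀ i x, l t0 ≤ x → x ≤ r t0 → F i t0 x < 0)
    (hint : ∀ i t x, t0 < t → t ≤ t1 → l t < x → x < r t → Past F l r t0 t → F i t x = 0 →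
      0 ≤ Ft i t x → Fx i t x = 0 → Fxx i t x ≤ 0 → False)
    (hleft : ∀ i t, t0 < t → t ≤ t1 → Past F l r t0 t → F i t (l t) = 0 → False)
    (hright : ∀ i t, t0 < t → t ≤ t1 → Past F l r t0 t → F i t (r t) = 0 → False) :
    ∀ i t x, t0 ≤ t → t ≤ t1 → l t ≤ x → x ≤ r t → F i t x < 0 := by
  refine neg_of_no_touch hl hr F hF h0 ?_ hlr
  intro i t x a b c d hz hp
  rcases c.eq_or_lt with c | c
  · subst c; exact hleft i t a b hp hz
  rcases d.eq_or_lt with d | d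
  · subst d; exact hright i t a b hp hz
  obtain ⟨e1, e2, e3⟩ := touch_interior (f := F i) (ft := Ft i) (fx := Fx i) (fxx := Fxx i)
    hl hr a b c d (ht i t x a b c d) (fun y u v => hx i t y a b u v) (hxx i t x a b c d) hz (hp i)
  exact hint i t x a b c d hp hz e1 e2 e3

/-- Maximum principle with a fixed degenerate left end `x = a`: there the caller gets
`0 ≤ F_t` and `F_x ≤ 0`. -/
theorem mp_family_left {ι : Type*} [Finite ι] {r : ℝ → ℝ} {a t0 t1 : ℝ}
    (hr : ContinuousOn r (Icc t0 t1)) (hlr : ∀ t, t0 ≤ t → t ≤ t1 → a < r t)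
    (F Ft Fx Fxx : ι → ℝ → ℝ → ℝ)
    (hF : ∀ i, ContinuousOn (fun p : ℝ × ℝ => F i p.1 p.2) (Reg (fun _ => a) r t0 t1))
    (ht : ∀ i t x, t0 < t → t ≤ t1 → a ≤ x → x < r t →
      HasDerivWithinAt (fun s => F i s x) (Ft i t x) (Iic t) t)
    (hx : ∀ i t x, t0 < t → t ≤ t1 → a < x → x < r t → HasDerivAt (F i t) (Fx i t x) x)
    (hxa : ∀ i t, t0 < t → t ≤ t1 → HasDerivWithinAt (F i t) (Fx i t a) (Icc a (r t)) a)
    (hxx : ∀ i t x, t0 < t → t ≤ t1 → a < x → x < r t → HasDerivAt (Fx i t) (Fxx i t x) x)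
    (h0 : ∀ i x, a ≤ x → x ≤ r t0 → F i t0 x < 0)
    (hint : ∀ i t x, t0 < t → t ≤ t1 → a < x → x < r t → Past F (fun _ => a) r t0 t →
      F i t x = 0 → 0 ≤ Ft i t x → Fx i t x = 0 → Fxx i t x ≤ 0 → False)
    (hleft : ∀ i t, t0 < t → t ≤ t1 → Past F (fun _ => a) r t0 t → F i t a = 0 →
      0 ≤ Ft i t a → Fx i t a ≤ 0 → False)
    (hright : ∀ i t, t0 < t → t ≤ t1 → Past F (fun _ => a) r t0 t → F i t (r t) = 0 → False) :
    ∀ i t x, t0 ≤ t → t ≤ t1 → a ≤ x → x ≤ r t → F i t x < 0 := by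
  refine mp_family (l := fun _ => a) continuousOn_const hr hlr F Ft Fx Fxx hF
    (fun i t x u v w z => ht i t x u v w.le z) hx hxx h0 hint ?_ hright
  intro i t u v hp hz
  have hrt := hlr t u.le v
  refine hleft i t u v hp hz ?_ ?_
  · refine deriv_nonneg_of_past u (ht i t a u v le_rfl hrt) hz fun s b c => ?_
    exact hp i s a b.le c.le le_rfl (hlr s b.le (c.le.trans v)).le
  · exact deriv_nonpos_of_right hrt (hxa i t u v) hz fun y b c => hp i t y u.le le_rfl b.le c.le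

/-- Maximum principle on a fixed interval with both ends degenerate. -/
theorem mp_family_both {ι : Type*} [Finite ι] {a b t0 t1 : ℝ} (hab : a < b)
    (F Ft Fx Fxx : ι → ℝ → ℝ → ℝ)
    (hF : ∀ i, ContinuousOn (fun p : ℝ × ℝ => F i p.1 p.2) (Icc t0 t1 ×ˢ Icc a b))
    (ht : ∀ i t x, t0 < t → t ≤ t1 → a ≤ x → x ≤ b →
      HasDerivWithinAt (fun s => F i s x) (Ft i t x) (Iic t) t)
    (hx : ∀ i t x, t0 < t → t ≤ t1 → a ≤ x → x ≤ b →
      HasDerivWithinAt (F i t) (Fx i t x) (Icc a b) x)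
    (hxx : ∀ i t x, t0 < t → t ≤ t1 → a < x → x < b → HasDerivAt (Fx i t) (Fxx i t x) x)
    (h0 : ∀ i x, a ≤ x → x ≤ b → F i t0 x < 0)
    (hint : ∀ i t x, t0 < t → t ≤ t1 → a < x → x < b → Past F (fun _ => a) (fun _ => b) t0 t →
      F i t x = 0 → 0 ≤ Ft i t x → Fx i t x = 0 → Fxx i t x ≤ 0 → False)
    (hleft : ∀ i t, t0 < t → t ≤ t1 → Past F (fun _ => a) (fun _ => b) t0 t → F i t a = 0 →
      0 ≤ Ft i t a → Fx i t a ≤ 0 → False)
    (hright : ∀ i t, t0 < t → t ≤ t1 → Past F (fun _ => a) (fun _ => b) t0 t → F i t b = 0 →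
      0 ≤ Ft i t b → 0 ≤ Fx i t b → False) :
    ∀ i t x, t0 ≤ t → t ≤ t1 → a ≤ x → x ≤ b → F i t x < 0 := by
  refine mp_family_left (r := fun _ => b) continuousOn_const (fun _ _ _ => hab) F Ft Fx Fxx
    (fun i => (hF i).mono fun p hp => ⟨⟨hp.1, hp.2.1⟩, hp.2.2⟩)
    (fun i t x u v w z => ht i t x u v w z.le)
    (fun i t x u v w z => (hx i t x u v w.le z.le).hasDerivAt (Icc_mem_nhds w z))
    (fun i t u v => hx i t a u v le_rfl hab.le) hxx h0 hint hleft ?_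
  intro i t u v hp hz
  refine hright i t u v hp hz ?_ ?_
  · exact deriv_nonneg_of_past u (ht i t b u v hab.le le_rfl) hz fun s c d =>
      hp i s b c.le d.le hab.le le_rfl
  · exact deriv_nonneg_of_left hab (hx i t b u v hab.le le_rfl) hz fun y c d =>
      hp i t y u.le le_rfl c.le d.le

end Crest.Agent.N207.S.MP
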