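import Crest.Agent.N207.S.Out.Exit_Mg
import Mathlib
import Crest.Prelude.Def_MetricFamily
import Crest.Agent.N207.S.GDefs
import Crest.Agent.Lib.ODEFlow
import Crest.Agent.N207.S.Gc1

-- ▼ part N207/S/Top/Gl3
section

/-!
Row 207, S0320: shooting and the gauge solution (helper55).
-/

set_option autoImplicit false

open Set Filter
open scoped Topology ContDiff

noncomputable section
namespace Crest.Agent.N207.S.Top

open Ex Ga

variable {e : ℝ} {b : ℕ} {h : Rel e b} {α T X K0 K C1 M : ℝ}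
  {u0 : (Fin 3 → ℝ) → ℝ → E3} {D : Set ((Fin 3 → ℝ) × ℝ)} {U : (Fin 3 → ℝ) → ℝ → ℝ → E3}

lemma later (F : IsFlow (sys h) u0 D U) {p : Fin 3 → ℝ} {s : ℝ} (hD : (p, s) ∈ D) (hs : s < T) :
    ∃ t', s < t' ∧ t' < T ∧ 0 < t' ∧ (p, t') ∈ D ∧ IsSol (sys h) 0 t' (U p) := by
  have h0 : 0 ≤ s := F.nonneg _ hD
  have hc : Tendsto (fun t : ℝ => (p, t)) (𝓝[>] s) (𝓝 (p, s)) :=
    (continuous_const.prodMk continuous_id).continuousAt.mono_left nhdsWithin_le_nhds
  obtain ⟨t, h1, h2⟩ := ((hc.eventually (F.opn _ hD)).and (Ioo_mem_nhdsGT hs)).exists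
  have h3 : 0 < t := h0.trans_lt h2.1
  exact ⟨t, h2.1, h2.2, h3, h1 h3.le, F.sol p t (h1 h3.le) h3⟩

lemma cont_cj (F : IsFlow (sys h) u0 D U) (hT : T ≤ 1) (i : Fin 3) (j : ℕ) :
    ContinuousOn (fun y : (Fin 3 → ℝ) × ℝ => cj (U y.1) i j y.2 (T - y.2))
      (D ∩ {y | 0 ≤ y.2 ∧ y.2 < T}) := by
  have hm : ∀ y ∈ D ∩ {y : (Fin 3 → ℝ) × ℝ | 0 ≤ y.2 ∧ y.2 < T}, T - y.2 ∈ Icc (0 : ℝ) 1 :=
    fun y hy => ⟨by linarith [hy.2.2], by linarith [hy.2.1]⟩
  have h1 := (F.cont j).comp (f := fun y : (Fin 3 → ℝ) × ℝ => (y, T - y.2)) (by fun_prop)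
    fun y hy => ⟨hy.1, hm y hy⟩
  refine ((EuclideanSpace.proj i : E3 →L[ℝ] ℝ).continuous.comp_continuousOn h1).congr
    fun y hy => ?_
  obtain ⟨t', a1, -, -, -, a2⟩ := later F (p := y.1) (s := y.2) hy.1 hy.2.2
  exact (sol_jet a2 j ⟨hy.2.1, a1.le⟩ (hm y hy) i).symm

lemma cont_nn (F : IsFlow (sys h) u0 D U) (hT : T ≤ 1) (j : ℕ) :
    ContinuousOn (fun y : (Fin 3 → ℝ) × ℝ => Out.nn α T (wT (U y.1)) j y.2)
      (D ∩ {y | 0 ≤ y.2 ∧ y.2 < T}) := by
  have hp : ∀ (a : ℝ) (i : ℕ), ContinuousOn (fun y : (Fin 3 → ℝ) × ℝ => Out.pw a i (T - y.2))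
      (D ∩ {y | 0 ≤ y.2 ∧ y.2 < T}) := fun a i =>
    continuousOn_const.mul (ContinuousOn.rpow_const (by fun_prop)
      fun y hy => Or.inl (sub_pos.2 hy.2.2).ne')
  have hw : ∀ i, ContinuousOn (fun y : (Fin 3 → ℝ) × ℝ => Out.WS (wT (U y.1)) i y.2 (T - y.2))
      (D ∩ {y | 0 ≤ y.2 ∧ y.2 < T}) := fun i => by
    have h1 : ContinuousOn (fun y : (Fin 3 → ℝ) × ℝ => idS i (T - y.2))
        (D ∩ {y | 0 ≤ y.2 ∧ y.2 < T}) := by
      rcases i with _ | _ | i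
      · simp only [idS]; fun_prop
      · exact continuousOn_const
      · exact continuousOn_const
    simp only [Out.WS, wT]
    exact ((cont_cj F hT 0 i).add h1).sub (hp 1 i)
  have h2 := cont_mulS (F := fun _ : (Fin 3 → ℝ) × ℝ => Out.pw (-α))
    (G := fun y i => Out.WS (wT (U y.1)) i y.2) (x := fun y => T - y.2) (hp _) hw j
  have h3 : ContinuousOn (fun y : (Fin 3 → ℝ) × ℝ => (T - y.2) ^ (3 - j))
      (D ∩ {y | 0 ≤ y.2 ∧ y.2 < T}) := by fun_prop
  simp only [Out.nn, Out.VV]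
  exact h2.div h3 fun y hy => pow_ne_zero _ (sub_pos.2 hy.2.2).ne'

lemma Ctx.good (c : Ctx h α T X K0 K C1 M) (F : IsFlow (sys h) u0 D U) {p : Fin 3 → ℝ}
    (d : Dat0 K0 e α T X (U p)) {t : ℝ} (hD : (p, t) ∈ D) (ht : t < T)
    (hc : ∀ s, 0 ≤ s → s ≤ t → ∀ j : Fin 3, |Out.nn α T (wT (U p)) j s| ≤ 1 / 100) :
    ∀ s ∈ Icc 0 t, Good K e T X (U p) s := by
  obtain ⟨t', a1, a2, a3, -, a4⟩ := later F hD ht
  exact (c.boot a3 a2 a4 d ⟨F.nonneg _ hD, a1.le⟩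
    fun s hs j hj => hc s hs.1 hs.2 ⟨j, hj⟩).1

theorem Ctx.shoot (c : Ctx h α T X K0 K C1 M) (F : IsFlow (sys h) u0 D U)
    (d : ∀ p, Dat0 K0 e α T X (U p))
    (f : ∀ p, ∀ j : Fin 3, (p j = 1 → 1 / 100 < Out.nn α T (wT (U p)) j 0) ∧
      (p j = -1 → Out.nn α T (wT (U p)) j 0 < -(1 / 100))) :
    Out.Shoot (ι := Fin 3) id T (1 / 100) D fun p s j => Out.nn α T (wT (U p)) j s where
  hT := c.hT
  hη := by norm_num
  hc := continuousOn_id
  zero_mem := F.zero_mem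
  down := F.down
  opn := F.opn
  cont j := cont_nn F (by linarith [c.TX, c.X4]) j
  extend p t h0 hT hs := by
    have a0 : 0 < (T - t) ^ 3 / 8 := by have := sub_pos.2 hT; positivity
    have a1 : (T - t) ^ 3 / 8 ≤ 1 := by
      have : (T - t) ^ 3 ≤ 1 := pow_le_one₀ (by linarith) (by linarith [c.TX, c.X4])
      linarith
    refine F.extend p t h0 (fun s h => (hs s h.1 h.2).1) _
      (isCompact_KK _ (3 * ((K + 1) / ((T - t) ^ 3 / 8) ^ 4))) (KK_sub a0 _)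
      (3 * ((K + 1) / ((T - t) ^ 3 / 8) ^ 4)) fun s h x hx => ?_
    have hD := (hs s h.1 h.2).1
    have g := c.good F (d p) hD (h.2.trans hT)
      (fun s' a b => (hs s' a (b.trans_lt h.2)).2) s ⟨h.1, le_rfl⟩
    obtain ⟨m1, m2⟩ := c.mem g a0 a1 hx (c.w_low g h.1 h.2.le hT hx)
    refine ⟨m2, fun j hj => norm_le3 _ fun i => ?_⟩
    obtain ⟨t', b1, -, -, -, b2⟩ := later F hD (h.2.trans hT)
    rw [sol_jet b2 j ⟨h.1, b1.le⟩ hx i]
    exact m1 i j hj
  trans p t t' h0 h1 h2 hD hc j hj :=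
    (c.boot (h0.trans_lt h1) h2 (F.sol p t' hD (h0.trans_lt h1)) (d p) ⟨h0, h1.le⟩
      fun s hs j hj => hc s hs.1 hs.2 ⟨j, hj⟩).2 h1 j j.2 hj
  face1 a _ j hj := (f a j).1 hj
  face0 a _ j hj := (f a j).2 hj

theorem Ctx.fin {q : ℕ} {h : Rel (1 / ((q : ℝ) - 1)) b} (c : Ctx h α T X K0 K C1 M) (hq : 2 ≤ q)
    (hG : GaFin) (F : IsFlow (sys h) u0 D U) (d : ∀ p, Dat0 K0 (1 / ((q : ℝ) - 1)) α T X (U p))
    (f : ∀ p, ∀ j : Fin 3, (p j = 1 → 1 / 100 < Out.nn α T (wT (U p)) j 0) ∧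
      (p j = -1 → Out.nn α T (wT (U p)) j 0 < -(1 / 100))) :
    ∃ a W X' z Y v, Geo.GaugeSol q a T W X' z Y v := by
  obtain ⟨p, hp⟩ := (c.shoot F d f).exit
  have g : ∀ t ∈ Ico 0 T, ∀ s ∈ Icc 0 t, Good K _ T X (U p) s := fun t ht =>
    c.good F (d p) (hp t ht.1 ht.2).1 ht.2
      fun s a b j => ((hp s a (b.trans_lt ht.2)).2 j).le
  have g' : ∀ t ∈ Ico 0 T, Good K _ T X (U p) t := fun t ht => g t ht t ⟨ht.1, le_rfl⟩
  have hX : ∀ t ∈ Ico 0 T, XSol _ 0 t X (wT (U p)) (ct (sys h) (U p) 0) (cj (U p) 2)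
      (ct (sys h) (U p) 2) := fun t ht => by
    obtain ⟨t', a1, -, a3, -, a4⟩ := later F (hp t ht.1 ht.2).1 ht.2
    exact ((c.near _ b h t' _ a3 a4 (d p).cp).2.mono le_rfl a1.le).monoX c.X4.le
  have hX0 := c.X0
  have hX4 := c.X4
  refine hG q b h T X (U p) hq c.hT c.X0 c.X4.le
    (fun t ht => F.sol p t (hp t ht.1.le ht.2).1 ht.1) (d p).cp
    (c.post _ _ _ _ (fun t ht => ⟨hX t ht, c.reg1 (g t ht), (g' t ht).out⟩) fun t ht x hx => ?_)
    ⟨KK (X / 2) (3 * ((K + 1) / (X / 2) ^ 4)), (K + 1) / (X / 2) ^ 4, isCompact_KK _ _,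
      KK_sub (half_pos hX0) _, fun s hs x hx => ?_⟩ ?_
  · have h1 := (g' t ht).inn.1 x hx
    have h2 : 0 ≤ (T - t) ^ 3 := pow_nonneg (by linarith [ht.2]) 3
    exact ⟨by linarith, by linarith [hx.1],
      ((g' t ht).pre x ⟨hx.1, by linarith [hx.2, ht.1, c.TX]⟩).2⟩
  · obtain ⟨m1, m2⟩ := c.mem (a := X / 2) (g' s hs) (by linarith) (by linarith)
      ⟨by linarith [hx.1], hx.2⟩ (by linarith [((g' s hs).far x hx).1, hx.1])
    exact ⟨m2, fun j hj => ⟨m1 0 j (by omega), m1 2 j (by omega)⟩⟩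
  · have hm : ∀ᶠ s in 𝓝[<] T, s ∈ Ico 0 T := Ico_mem_nhdsLT c.hT
    have hl : Tendsto (fun s => (T - s) / 50) (𝓝[<] T) (𝓝 0) := by
      have : Tendsto (fun s => (T - s) / 50) (𝓝 T) (𝓝 ((T - T) / 50)) :=
        (by fun_prop : Continuous fun s : ℝ => (T - s) / 50).tendsto T
      rw [sub_self, zero_div] at this
      exact this.mono_left nhdsWithin_le_nhds
    refine squeeze_zero' ?_ ?_ hl
    · filter_upwards [hm] with s hs using (c.tip (hX s hs) (g' s hs) hs.1 hs.2).1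
    · filter_upwards [hm] with s hs using (c.tip (hX s hs) (g' s hs) hs.1 hs.2).2

/-- **the glue**. -/
theorem glue (hF : FlowStmt) (hN : GaNear) (hG : GaFin) (hR : Rg.RegStmt) (hO : Out.OuterStmt)
    (hI : InnerStmt) (hP : In.PostStmt) (hD : DataStmt) :
    ∃ q : ℕ, 10 ≤ q ∧ ∃ a T W X' z Y v, Geo.GaugeSol q a T W X' z Y v := by
  obtain ⟨K0, hK0, hD⟩ := hD
  obtain ⟨x0, hx0, hR⟩ := hR
  obtain ⟨K1, eR, hK1, heR, hR⟩ := hR 40 K0 (by norm_num)
  obtain ⟨C1, eI, XI, hC1, heI, hXI, hI⟩ := hI (K0 + K1 + 1) (by linarith)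
  obtain ⟨XO, hXO, hO⟩ := hO C1 hC1
  obtain ⟨eP, heP, hP⟩ := hP (K0 + K1 + 1)
  obtain ⟨M, hM1, hM⟩ := exists_BM
  obtain ⟨ε, hε, e1, e2, e3, e4, e5⟩ : ∃ ε : ℝ, 0 < ε ∧ ε ≤ eR ∧ ε ≤ eI ∧ ε ≤ eP ∧ ε ≤ 1 / 10 ^ 6 ∧
      ε ≤ 1 / (8 * (K0 + K1)) :=
    ⟨min eR (min eI (min eP (min (1 / 10 ^ 6) (1 / (8 * (K0 + K1)))))), by positivity,
      min_le_left _ _, by simp, by simp, by simp, by simp⟩
  obtain ⟨X, hX, x1, x2, x3, x4, x5⟩ : ∃ X : ℝ, 0 < X ∧ X ≤ x0 ∧ X ≤ XI ∧ X ≤ XO ∧ X ≤ 1 / 10 ^ 6 ∧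
      X ≤ 1 / (4 * M) :=
    ⟨min x0 (min XI (min XO (min (1 / 10 ^ 6) (1 / (4 * M))))), by positivity,
      min_le_left _ _, by simp, by simp, by simp, by simp⟩
  obtain ⟨n, hn⟩ := exists_nat_ge (1 / ε)
  have hq : 2 ≤ 2 * n + 11 := by omega
  have h := rel_of (b := n + 7) hq (by ring)
  have he : 1 / (((2 * n + 11 : ℕ) : ℝ) - 1) ≤ ε := by
    have : (0 : ℝ) ≤ n := Nat.cast_nonneg n
    rw [div_le_iff₀ hε] at hn
    push_cast
    rw [div_le_iff₀ (by linarith)]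
    nlinarith
  obtain ⟨α, hα⟩ := Out.exists_par h.1 (he.trans e4)
  obtain ⟨TD, hTD, hD⟩ := hD X hX x4
  obtain ⟨TR, hTR, hR⟩ := hR _ _ h (he.trans e1) X hX x1 (X ^ 2) (by positivity)
  obtain ⟨TI, hTI, hI⟩ := hI X hX x2
  obtain ⟨TO, hTO, hTX, hO⟩ := hO X hX x3
  obtain ⟨T, hT, t1, t2, t3, t4⟩ : ∃ T : ℝ, 0 < T ∧ T ≤ TD ∧ T ≤ TR ∧ T ≤ TI ∧ T ≤ TO :=
    ⟨min TD (min TR (min TI TO)), by positivity, min_le_left _ _, by simp, by simp, by simp⟩
  obtain ⟨u0, d1, d2, d3, d4, d5⟩ := hD _ _ α T hα hT t1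
  obtain ⟨D, U, F⟩ := hF E3 (sys h) (Fin 3 → ℝ) u0 d1 d2 d3 d4
  have hX4 : X < 1 / 4 := x4.trans_lt (by norm_num)
  have c : Ctx h α T X K0 (K0 + K1) C1 M :=
    { hT := hT
      TX := t4.trans hTX
      X1 := x4
      K1 := by linarith
      K0K := by linarith
      eK := by
        have := he.trans e5
        rwa [le_div_iff₀ (by linarith), mul_comm] at this
      hM := hM
      XM := by rw [le_div_iff₀ (by linarith)] at x5; linarith
      near := hN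
      reg := fun t U h0 h1 a1 a2 a3 a4 a5 s hs => by
        obtain ⟨b1, b2⟩ := hR t U h0 (h1.trans t2) a1 a2 a3 a4 a5 s hs
        exact ⟨jb_mono b1 (by linarith) h.1.le,
          fun x hx => ⟨(b2 x hx).1, ((b2 x hx).2 0 (by norm_num)).1⟩⟩
      inner := fun t w wt k kt a1 a2 a3 =>
        hI _ t T _ w wt k kt h.1 (he.trans e2) hX4 a1 a2 a3 t3
      outer := fun t t' w wt k kt a1 a2 a3 a4 =>
        hO _ _ α 0 t t' T _ w wt k kt hα hX4 a1 a2 a3 a4 (by linarith)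
      post := fun w wt k kt => hP _ 0 T X (1 / 8) w wt k kt h.1 (he.trans e3) hT
        (by linarith) (by linarith) (by norm_num) }
  have d6 := fun p => d5 p (U p) (F.init p)
  obtain ⟨a, W, X', z, Y, v, hs⟩ := c.fin hq hG F
    (fun p => ⟨(d6 p).1, (d6 p).2.1, (d6 p).2.2.1, (d6 p).2.2.2.1, (d6 p).2.2.2.2.1⟩)
    fun p => (d6 p).2.2.2.2.2
  exact ⟨_, by omega, a, T, W, X', z, Y, v, hs⟩

end Crest.Agent.N207.S.Top
end
end

-- ▼ part N207/S/Gb1
section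

/-!
Row 207, S0320, geometry part G2 (helper49), file 1: the preferred charts of the round sphere.
-/

set_option autoImplicit false

open scoped ContDiff Manifold Topology InnerProductSpace
open Set Filter

noncomputable section

namespace Crest.Agent.N207.S.Gb

abbrev En (n : ℕ) : Type := EuclideanSpace ℝ (Fin n)

abbrev Sp (n : ℕ) : Type := Metric.sphere (0 : EuclideanSpace ℝ (Fin (n + 1))) 1

variable {n : ℕ}

instance factFin (n : ℕ) : Fact (Module.finrank ℝ (En (n + 1)) = n + 1) :=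
  ⟨finrank_euclideanSpace_fin⟩

/-- the linear isometry `ℝⁿ → v^⊥` used by the preferred chart at `v` -/
def Ui (v : Sp n) : En n →ₗᵢ[ℝ] En (n + 1) :=
  ((ℝ ∙ ((-v : Sp n) : En (n + 1)))ᗮ.subtypeₗᵢ).comp
    (OrthonormalBasis.fromOrthogonalSpanSingleton n
      (ne_zero_of_mem_unit_sphere (-v))).repr.symm.toLinearIsometry

/-- the same as a continuous linear map -/
def Uc (v : Sp n) : En n →L[ℝ] En (n + 1) := (Ui v).toContinuousLinearMap


theorem inner_Uc (v : Sp n) (y z : En n) : ⟪Uc v y, Uc v z⟫_ℝ = ⟪y, z⟫_ℝ :=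
  (Ui v).inner_map_map y z

theorem norm_Uc (v : Sp n) (y : En n) : ‖Uc v y‖ = ‖y‖ := (Ui v).norm_map y

theorem inner_v_Uc (v : Sp n) (y : En n) : ⟪(v : En (n + 1)), Uc v y⟫_ℝ = 0 := by
  have h := ((OrthonormalBasis.fromOrthogonalSpanSingleton n
      (ne_zero_of_mem_unit_sphere (-v))).repr.symm y).2
  rw [Submodule.mem_orthogonal_singleton_iff_inner_right] at h
  have h2 : ⟪-(v : En (n + 1)), Uc v y⟫_ℝ = 0 := h
  rwa [inner_neg_left, neg_eq_zero] at h2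

theorem inner_Uc_v (v : Sp n) (y : En n) : ⟪Uc v y, (v : En (n + 1))⟫_ℝ = 0 := by
  rw [real_inner_comm]; exact inner_v_Uc v y

theorem inner_v_v (v : Sp n) : ⟪(v : En (n + 1)), (v : En (n + 1))⟫_ℝ = 1 := by
  rw [real_inner_self_eq_norm_sq, norm_eq_of_mem_sphere]; norm_num

/-- every vector orthogonal to `v` is in the range of `Uc v` -/
theorem exists_Uc (v : Sp n) {w : En (n + 1)} (hw : ⟪(v : En (n + 1)), w⟫_ℝ = 0) :
    ∃ y, Uc v y = w := by
  have h : w ∈ (ℝ ∙ ((-v : Sp n) : En (n + 1)))ᗮ := by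
    rw [Submodule.mem_orthogonal_singleton_iff_inner_right]
    show ⟪-(v : En (n + 1)), w⟫_ℝ = 0
    rw [inner_neg_left, hw, neg_zero]
  refine ⟨(OrthonormalBasis.fromOrthogonalSpanSingleton n
      (ne_zero_of_mem_unit_sphere (-v))).repr ⟨w, h⟩, ?_⟩
  show (((OrthonormalBasis.fromOrthogonalSpanSingleton n
      (ne_zero_of_mem_unit_sphere (-v))).repr.symm _ : _) : En (n + 1)) = w
  rw [LinearIsometryEquiv.symm_apply_apply]

/-- the inverse chart as a map to the ambient space -/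
def Sm (v : Sp n) (y : En n) : En (n + 1) :=
  (4 / (‖y‖ ^ 2 + 4)) • Uc v y + ((4 - ‖y‖ ^ 2) / (‖y‖ ^ 2 + 4)) • (v : En (n + 1))

theorem chart_eq (v : Sp n) : chartAt (En n) v = stereographic' n (-v) := rfl

theorem chart_symm (v : Sp n) (y : En n) :
    (((chartAt (En n) v).symm y : Sp n) : En (n + 1)) = Sm v y := by
  rw [chart_eq, stereographic'_symm_apply]
  show (‖Uc v y‖ ^ 2 + 4)⁻¹ • (4 : ℝ) • Uc v y
    + (‖Uc v y‖ ^ 2 + 4)⁻¹ • (‖Uc v y‖ ^ 2 - 4) • (-(v : En (n + 1))) = _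
  simp only [norm_Uc, Sm, smul_smul, smul_neg, ← neg_smul]
  congr 2
  · ring
  · ring

theorem chart_target (v : Sp n) : (chartAt (En n) v).target = univ := by
  rw [chart_eq, stereographic'_target]

theorem Sm_zero (v : Sp n) : Sm v 0 = v := by
  simp [Sm]

theorem chart_self (v : Sp n) : chartAt (En n) v v = 0 := by
  have h1 : (chartAt (En n) v).symm 0 = v := Subtype.ext (by rw [chart_symm, Sm_zero])
  have h2 := (chartAt (En n) v).right_inv (x := 0) (by rw [chart_target]; trivial)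
  rwa [h1] at h2

theorem den_pos (y : En n) : 0 < ‖y‖ ^ 2 + 4 := by positivity

theorem contDiff_nsq {k : ℕ∞ω} : ContDiff ℝ k fun y : En n => ‖y‖ ^ 2 := contDiff_norm_sq ℝ

theorem contDiff_Sm (v : Sp n) {k : ℕ∞ω} : ContDiff ℝ k (Sm v) := by
  unfold Sm
  refine ContDiff.add (ContDiff.fun_smul ?_ (Uc v).contDiff) (ContDiff.fun_smul ?_ contDiff_const)
  · exact contDiff_const.div (contDiff_nsq.add contDiff_const) fun y => (den_pos y).ne'
  · exact (contDiff_const.sub contDiff_nsq).div (contDiff_nsq.add contDiff_const)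
      fun y => (den_pos y).ne'

/-- the derivative of the inverse chart -/
theorem fderiv_Sm (v : Sp n) (y X : En n) :
    fderiv ℝ (Sm v) y X = (4 / (‖y‖ ^ 2 + 4)) • Uc v X
      - (8 * ⟪y, X⟫_ℝ / (‖y‖ ^ 2 + 4) ^ 2) • Uc v y
      - (16 * ⟪y, X⟫_ℝ / (‖y‖ ^ 2 + 4) ^ 2) • (v : En (n + 1)) := by
  have hd := (den_pos y).ne'
  have hl : HasDerivAt (fun s : ℝ => y + s • X) X 0 := by
    simpa using ((hasDerivAt_id (0 : ℝ)).smul_const X).const_add y
  have h0 : HasDerivAt (fun s : ℝ => Sm v (y + s • X)) (fderiv ℝ (Sm v) y X) 0 := by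
    have h1 : HasFDerivAt (Sm v) (fderiv ℝ (Sm v) y) (y + (0 : ℝ) • X) := by
      rw [zero_smul, add_zero]
      exact ((contDiff_Sm v (k := 1)).differentiable one_ne_zero y).hasFDerivAt
    exact h1.comp_hasDerivAt 0 hl
  have hn : HasDerivAt (fun s : ℝ => ‖y + s • X‖ ^ 2) (2 * ⟪y, X⟫_ℝ) 0 := by
    simpa using hl.norm_sq
  have hU : HasDerivAt (fun s : ℝ => Uc v (y + s • X)) (Uc v X) 0 :=
    (Uc v).hasFDerivAt.comp_hasDerivAt 0 hl
  have hne : ‖y + (0 : ℝ) • X‖ ^ 2 + 4 ≠ 0 := (den_pos _).ne'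
  have ha := (hasDerivAt_const (0 : ℝ) (4 : ℝ)).div (hn.add_const 4) hne
  have hb := (hn.const_sub 4).div (hn.add_const 4) hne
  have h2 := (ha.smul hU).add (hb.smul_const (v : En (n + 1)))
  have h3 := h0.unique h2
  rw [h3]
  simp only [zero_smul, add_zero, Pi.div_apply]
  have e1 : (0 * (‖y‖ ^ 2 + 4) - 4 * (2 * ⟪y, X⟫_ℝ)) / (‖y‖ ^ 2 + 4) ^ 2
      = -(8 * ⟪y, X⟫_ℝ / (‖y‖ ^ 2 + 4) ^ 2) := by ring
  have e2 : (-(2 * ⟪y, X⟫_ℝ) * (‖y‖ ^ 2 + 4) - (4 - ‖y‖ ^ 2) * (2 * ⟪y, X⟫_ℝ)) / (‖y‖ ^ 2 + 4) ^ 2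
      = -(16 * ⟪y, X⟫_ℝ / (‖y‖ ^ 2 + 4) ^ 2) := by ring
  rw [e1, e2, neg_smul, neg_smul]
  abel

/-- the round metric in the chart -/
theorem inner_fderiv_Sm (v : Sp n) (y X Y : En n) :
    ⟪fderiv ℝ (Sm v) y X, fderiv ℝ (Sm v) y Y⟫_ℝ = 16 / (‖y‖ ^ 2 + 4) ^ 2 * ⟪X, Y⟫_ℝ := by
  have hd := (den_pos y).ne'
  rw [fderiv_Sm, fderiv_Sm]
  simp only [inner_sub_left, inner_sub_right, inner_smul_left, inner_smul_right, inner_Uc,
    inner_Uc_v, inner_v_Uc, conj_trivial, real_inner_self_eq_norm_sq, norm_Uc,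
    norm_eq_of_mem_sphere, real_inner_comm y X]
  field_simp
  ring

theorem norm_Sm (v : Sp n) (y : En n) : ‖Sm v y‖ = 1 := by
  rw [← chart_symm]; exact norm_eq_of_mem_sphere _

/-- the covector `l` with `(Uc v y) 0 = ⟪l, y⟫` -/
def lv (v : Sp n) : En n := ContinuousLinearMap.adjoint (Uc v) (EuclideanSpace.single 0 1)

theorem inner_lv (v : Sp n) (y : En n) : ⟪lv v, y⟫_ℝ = Uc v y 0 := by
  rw [lv, ContinuousLinearMap.adjoint_inner_left, EuclideanSpace.inner_single_left]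
  simp


theorem norm_lv (v : Sp n) : ‖lv v‖ ^ 2 = 1 - (v : En (n + 1)) 0 ^ 2 := by
  set e : En (n + 1) := EuclideanSpace.single 0 1 with he
  have hve : ⟪(v : En (n + 1)), e⟫_ℝ = (v : En (n + 1)) 0 := by
    rw [he, EuclideanSpace.inner_single_right]; simp
  obtain ⟨y, hy⟩ := exists_Uc v (w := e - (v : En (n + 1)) 0 • (v : En (n + 1))) (by
    rw [inner_sub_right, inner_smul_right, inner_v_v, hve]; ring)
  have h1 : lv v = y := by
    refine ext_inner_right ℝ fun z => ?_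
    rw [lv, ContinuousLinearMap.adjoint_inner_left, ← inner_Uc v y z, hy, inner_sub_left,
      inner_smul_left, inner_v_Uc]
    simp [he]
  rw [← real_inner_self_eq_norm_sq, inner_lv, h1, hy]
  simp [he]
  ring

/-- the height function in the chart -/
theorem Sm_apply_zero (v : Sp n) (y : En n) :
    Sm v y 0 = (4 * ⟪lv v, y⟫_ℝ + (4 - ‖y‖ ^ 2) * (v : En (n + 1)) 0) / (‖y‖ ^ 2 + 4) := by
  rw [inner_lv]
  simp only [Sm, PiLp.add_apply, PiLp.smul_apply, smul_eq_mul]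
  ring

theorem abs_coord_le (v : Sp n) : |(v : En (n + 1)) 0| ≤ 1 := by
  have h := PiLp.norm_apply_le (v : En (n + 1)) 0
  rwa [norm_eq_of_mem_sphere, Real.norm_eq_abs] at h

end Crest.Agent.N207.S.Gb
end
end

-- ▼ part N207/S/Gb2
section

/-!
Row 207, S0320, geometry part G2 (helper49), file 2: the family of forms on `S² × S^(q+1)` and its
coefficients in the preferred charts.
-/

set_option autoImplicit false

open scoped ContDiff Manifold Topology InnerProductSpace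
open Set Filter
open Crest.GeometryTopology.CoordMetric Crest.GeometryTopology.MetricFamily

noncomputable section

namespace Crest.Agent.N207.S.Gb

abbrev II (q : ℕ) := (𝓡 2).prod (𝓡 (q + 1))

abbrev MM (q : ℕ) : Type := Sp 2 × Sp (q + 1)

abbrev EH (q : ℕ) : Type := En 2 × En (q + 1)

abbrev ph (q : ℕ) : EH q ≃L[ℝ] En (2 + (q + 1)) :=
  (@EuclideanSpace.finAddEquivProd ℝ _ 2 (q + 1)).symm

variable {q : ℕ}

/-- the real inner product as a continuous bilinear map -/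
def ip (n : ℕ) : En n →L[ℝ] En n →L[ℝ] ℝ := innerSL ℝ

theorem ip_apply {n : ℕ} (X Y : En n) : ip n X Y = ⟪X, Y⟫_ℝ := rfl

def i1 (p : MM q) : En (2 + 1) := p.1

def i2 (p : MM q) : En (q + 1 + 1) := p.2

def D1 (x : MM q) : EH q →L[ℝ] En (2 + 1) := mfderiv (II q) 𝓘(ℝ, En (2 + 1)) i1 x

def D2 (x : MM q) : EH q →L[ℝ] En (q + 1 + 1) := mfderiv (II q) 𝓘(ℝ, En (q + 1 + 1)) i2 x

def dh (x : MM q) : EH q →L[ℝ] ℝ :=
  (EuclideanSpace.proj (0 : Fin (q + 1 + 1)) : En (q + 1 + 1) →L[ℝ] ℝ).comp (D2 x)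

/-- `w g_{S²} + a g_{round} + b dh²` -/
def form (w a b : ℝ) (x : MM q) : EH q →L[ℝ] EH q →L[ℝ] ℝ :=
  w • (ip _).bilinearComp (D1 x) (D1 x) + a • (ip _).bilinearComp (D2 x) (D2 x)
    + b • (ContinuousLinearMap.mul ℝ ℝ).bilinearComp (dh x) (dh x)

theorem form_apply (w a b : ℝ) (x : MM q) (X Y : EH q) :
    form w a b x X Y = w * ⟪D1 x X, D1 x Y⟫_ℝ + a * ⟪D2 x X, D2 x Y⟫_ℝ
      + b * (D2 x X 0 * D2 x Y 0) := by
  simp [form, ip_apply, dh]

/-- the height -/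
def ht (x : MM q) : ℝ := (x.2 : En (q + 1 + 1)) 0

/-- the family of forms -/
def fam (q : ℕ) (W A B : ℝ → ℝ → ℝ) : FormFamily (II q) (MM q) :=
  fun t x => form (W t (ht x)) (A t (ht x)) (B t (ht x)) x

theorem contMDiff_i1 : ContMDiff (II q) 𝓘(ℝ, En (2 + 1)) ∞ (i1 (q := q)) :=
  contMDiff_coe_sphere.comp contMDiff_fst

theorem contMDiff_i2 : ContMDiff (II q) 𝓘(ℝ, En (q + 1 + 1)) ∞ (i2 (q := q)) :=
  contMDiff_coe_sphere.comp contMDiff_snd

theorem ext_symm (x : MM q) (z : EH q) :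
    (extChartAt (II q) x).symm z
      = ((chartAt (En 2) x.1).symm z.1, (chartAt (En (q + 1)) x.2).symm z.2) := by
  rw [extChartAt_prod]
  simp [PartialEquiv.prod_symm]

theorem ext_target (x : MM q) : (extChartAt (II q) x).target = univ := by
  rw [extChartAt_prod]
  simp [chart_target]

theorem ext_self (x : MM q) : extChartAt (II q) x x = 0 := by
  rw [extChartAt_prod]
  simp [chart_self]

theorem famCentre_eq (x : MM q) : famCentre (II q) (ph q) (MM q) x = 0 := by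
  rw [famCentre, ext_self, map_zero]

theorem famTarget_eq (x : MM q) : famTarget (II q) (ph q) (MM q) x = univ := by
  ext y
  simp only [famTarget, ext_target, mem_univ, mem_ofPred_eq]

theorem mdiff_symm (x : MM q) (z : EH q) :
    MDifferentiableAt 𝓘(ℝ, EH q) (II q) (extChartAt (II q) x).symm z := by
  have h := contMDiffOn_extChartAt_symm (I := II q) (n := ∞) x
  rw [ext_target] at h
  exact (contMDiffOn_univ.1 h z).mdifferentiableAt (by simp)

theorem D1_chain (x : MM q) (z X : EH q) :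
    D1 ((extChartAt (II q) x).symm z)
      (mfderiv 𝓘(ℝ, EH q) (II q) (extChartAt (II q) x).symm z X) = fderiv ℝ (Sm x.1) z.1 X.1 := by
  have h1 := mfderiv_comp z ((contMDiff_i1 (q := q) _).mdifferentiableAt (by simp)) (mdiff_symm x z)
  have h2 : i1 ∘ (extChartAt (II q) x).symm = fun z : EH q => Sm x.1 z.1 := by
    funext z
    simp only [Function.comp, ext_symm, i1, chart_symm]
  have h3 : HasFDerivAt (fun z : EH q => Sm x.1 z.1)
      ((fderiv ℝ (Sm x.1) z.1).comp (ContinuousLinearMap.fst ℝ _ _)) z :=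
    ((contDiff_Sm x.1 (k := 1)).differentiable one_ne_zero z.1).hasFDerivAt.comp z hasFDerivAt_fst
  rw [h2, mfderiv_eq_fderiv, h3.fderiv] at h1
  exact (congrArg (fun L : EH q →L[ℝ] En (2 + 1) => L X) h1).symm

theorem D2_chain (x : MM q) (z X : EH q) :
    D2 ((extChartAt (II q) x).symm z)
      (mfderiv 𝓘(ℝ, EH q) (II q) (extChartAt (II q) x).symm z X) = fderiv ℝ (Sm x.2) z.2 X.2 := by
  have h1 := mfderiv_comp z ((contMDiff_i2 (q := q) _).mdifferentiableAt (by simp)) (mdiff_symm x z)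
  have h2 : i2 ∘ (extChartAt (II q) x).symm = fun z : EH q => Sm x.2 z.2 := by
    funext z
    simp only [Function.comp, ext_symm, i2, chart_symm]
  have h3 : HasFDerivAt (fun z : EH q => Sm x.2 z.2)
      ((fderiv ℝ (Sm x.2) z.2).comp (ContinuousLinearMap.snd ℝ _ _)) z :=
    ((contDiff_Sm x.2 (k := 1)).differentiable one_ne_zero z.2).hasFDerivAt.comp z hasFDerivAt_snd
  rw [h2, mfderiv_eq_fderiv, h3.fderiv] at h1
  exact (congrArg (fun L : EH q →L[ℝ] En (q + 1 + 1) => L X) h1).symm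

theorem ht_symm (x : MM q) (z : EH q) : ht ((extChartAt (II q) x).symm z) = Sm x.2 z.2 0 := by
  rw [ext_symm, ht, chart_symm]

/-- **the coefficients of the family in the preferred chart** -/
theorem famCoeff_fam (W A B : ℝ → ℝ → ℝ) (x : MM q) (t : ℝ) (y : En (2 + (q + 1)))
    (i j : Fin (2 + (q + 1))) :
    famCoeff (II q) (ph q) (MM q) (fam q W A B) x t y i j =
      W t (Sm x.2 ((ph q).symm y).2 0) * (16 / (‖((ph q).symm y).1‖ ^ 2 + 4) ^ 2 *
        ⟪((ph q).symm (EuclideanSpace.single i 1)).1, ((ph q).symm (EuclideanSpace.single j 1)).1⟫_ℝ)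
      + A t (Sm x.2 ((ph q).symm y).2 0) * (16 / (‖((ph q).symm y).2‖ ^ 2 + 4) ^ 2 *
        ⟪((ph q).symm (EuclideanSpace.single i 1)).2, ((ph q).symm (EuclideanSpace.single j 1)).2⟫_ℝ)
      + B t (Sm x.2 ((ph q).symm y).2 0) *
        (fderiv ℝ (Sm x.2) ((ph q).symm y).2 ((ph q).symm (EuclideanSpace.single i 1)).2 0 *
          fderiv ℝ (Sm x.2) ((ph q).symm y).2 ((ph q).symm (EuclideanSpace.single j 1)).2 0) := by
  have h := form_apply (W t (ht ((extChartAt (II q) x).symm ((ph q).symm y))))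
    (A t (ht ((extChartAt (II q) x).symm ((ph q).symm y))))
    (B t (ht ((extChartAt (II q) x).symm ((ph q).symm y))))
    ((extChartAt (II q) x).symm ((ph q).symm y))
    (mfderiv 𝓘(ℝ, EH q) (II q) (extChartAt (II q) x).symm ((ph q).symm y)
      ((ph q).symm (EuclideanSpace.single i 1)))
    (mfderiv 𝓘(ℝ, EH q) (II q) (extChartAt (II q) x).symm ((ph q).symm y)
      ((ph q).symm (EuclideanSpace.single j 1)))
  rw [D1_chain, D1_chain, D2_chain, D2_chain, inner_fderiv_Sm, inner_fderiv_Sm, ht_symm] at h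
  rw [← ht_symm x] at h ⊢
  exact h

end Crest.Agent.N207.S.Gb
end
end

-- ▼ part N207/S/Gb3
section

/-!
Row 207, S0320, geometry part G2 (helper49), file 3: the family is a smooth family of metrics.
-/

set_option autoImplicit false

open scoped ContDiff Manifold Topology InnerProductSpace
open Set Filter
open Crest.GeometryTopology.CoordMetric Crest.GeometryTopology.MetricFamily

noncomputable section

namespace Crest.Agent.N207.S.Gb

variable {q n : ℕ}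

theorem Sm_mem (v : Sp n) (y : En n) : Sm v y 0 ∈ Icc (-1 : ℝ) 1 := by
  rw [← chart_symm]
  exact abs_le.1 (abs_coord_le _)

theorem inner_Sm_fderiv (v : Sp n) (y X : En n) : ⟪Sm v y, fderiv ℝ (Sm v) y X⟫_ℝ = 0 := by
  have hd := (den_pos y).ne'
  rw [fderiv_Sm, Sm]
  simp only [inner_sub_right, inner_add_left, inner_smul_left, inner_smul_right, inner_Uc,
    inner_Uc_v, inner_v_Uc, conj_trivial, real_inner_self_eq_norm_sq, norm_Uc,
    norm_eq_of_mem_sphere]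
  field_simp
  ring

/-- a tangent vector `T` at a point `p` of the unit sphere has `T₀² ≤ (1 - p₀²) |T|²` -/
theorem coord_sq_le {p T : En (n + 1)} (hp : ‖p‖ = 1) (hT : ⟪p, T⟫_ℝ = 0) :
    T 0 * T 0 ≤ (1 - p 0 ^ 2) * ⟪T, T⟫_ℝ := by
  set e : En (n + 1) := EuclideanSpace.single 0 1 with he
  have h1 : ∀ w : En (n + 1), ⟪e, w⟫_ℝ = w 0 := fun w => by
    rw [he, EuclideanSpace.inner_single_left]; simp
  have h2 : ⟪e - p 0 • p, T⟫_ℝ = T 0 := by
    rw [inner_sub_left, inner_smul_left, hT, h1]; simp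
  have h3 : ⟪e - p 0 • p, e - p 0 • p⟫_ℝ = 1 - p 0 ^ 2 := by
    have h4 : ⟪p, p⟫_ℝ = 1 := by rw [real_inner_self_eq_norm_sq, hp]; norm_num
    have h5 : e 0 = 1 := by simp [he]
    simp only [inner_sub_left, inner_sub_right, inner_smul_left, inner_smul_right, conj_trivial,
      h1, h4, h5, real_inner_comm e p]
    ring
  have h6 := real_inner_mul_inner_self_le (e - p 0 • p) T
  rwa [h2, h3] at h6

theorem sum_single (v : Fin n → ℝ) :
    (WithLp.toLp 2 v : En n) = ∑ i, v i • (EuclideanSpace.single i 1 : En n) := by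
  ext k
  simp [Pi.single_apply]

/-- the Gram matrix of a symmetric form which is positive on the range of `L` -/
theorem posDef_gram {E : Type*} [NormedAddCommGroup E] [NormedSpace ℝ E]
    (F : E →L[ℝ] E →L[ℝ] ℝ) (L : En n →L[ℝ] E) (hs : ∀ X Y, F X Y = F Y X)
    (hp : ∀ v, v ≠ 0 → 0 < F (L v) (L v)) :
    (Matrix.of fun i j : Fin n =>
      F (L (EuclideanSpace.single i 1)) (L (EuclideanSpace.single j 1))).PosDef := by
  refine Matrix.PosDef.of_dotProduct_mulVec_pos ?_ ?_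
  · ext i j
    simp only [Matrix.conjTranspose_apply, star_trivial, Matrix.of_apply]
    exact hs _ _
  · intro v hv
    have hv' : (WithLp.toLp 2 v : En n) ≠ 0 := by
      intro h0
      apply hv
      have := congrArg WithLp.ofLp h0
      simpa using this
    have h := hp _ hv'
    rw [sum_single] at h
    simp only [map_sum, map_smul, sum_apply, smul_apply,
      smul_eq_mul] at h
    simp only [dotProduct, Matrix.mulVec, Matrix.of_apply, star_trivial]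
    refine h.trans_eq (Finset.sum_congr rfl fun i _ => ?_)
    congr 1
    exact Finset.sum_congr rfl fun j _ => by rw [hs]; ring

theorem form_symm (w a b : ℝ) (x : MM q) (X Y : EH q) : form w a b x X Y = form w a b x Y X := by
  rw [form_apply, form_apply, real_inner_comm (D1 x X), real_inner_comm (D2 x X)]; ring

theorem posDef_fam {W A B : ℝ → ℝ → ℝ} {t : ℝ} (hW : ∀ h ∈ Icc (-1 : ℝ) 1, 0 < W t h)
    (hA : ∀ h ∈ Icc (-1 : ℝ) 1, 0 < A t h)
    (hB : ∀ h ∈ Icc (-1 : ℝ) 1, 0 < A t h + B t h * (1 - h ^ 2)) (x : MM q)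
    (y : En (2 + (q + 1))) : (famCoeff (II q) (ph q) (MM q) (fam q W A B) x t y).PosDef := by
  set z := (ph q).symm y with hz
  set p := (extChartAt (II q) x).symm z with hp
  let L0 : EH q →L[ℝ] EH q := mfderiv 𝓘(ℝ, EH q) (II q) (extChartAt (II q) x).symm z
  let L : En (2 + (q + 1)) →L[ℝ] EH q := L0.comp ((ph q).symm : En (2 + (q + 1)) →L[ℝ] EH q)
  refine posDef_gram (form (W t (ht p)) (A t (ht p)) (B t (ht p)) p) L (form_symm _ _ _ _) ?_
  intro v hv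
  set X := (ph q).symm v with hX
  have hX0 : X ≠ 0 := fun h => hv ((ph q).symm.map_eq_zero_iff.1 h)
  have e1 : D1 p (L v) = fderiv ℝ (Sm x.1) z.1 X.1 := D1_chain x z X
  have e2 : D2 p (L v) = fderiv ℝ (Sm x.2) z.2 X.2 := D2_chain x z X
  have e3 : ht p = Sm x.2 z.2 0 := ht_symm x z
  have hm := Sm_mem x.2 z.2
  rw [form_apply, e1, e2, e3]
  have h1 := coord_sq_le (norm_Sm x.2 z.2) (inner_Sm_fderiv x.2 z.2 X.2)
  have h2 := inner_fderiv_Sm x.1 z.1 X.1 X.1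
  have h3 := inner_fderiv_Sm x.2 z.2 X.2 X.2
  have c1 : 0 < 16 / (‖z.1‖ ^ 2 + 4) ^ 2 := by positivity
  have c2 : 0 < 16 / (‖z.2‖ ^ 2 + 4) ^ 2 := by positivity
  have w0 := hW _ hm
  have a0 := hA _ hm
  have b0 := hB _ hm
  set T := fderiv ℝ (Sm x.2) z.2 X.2
  set N2 := ⟪T, T⟫_ℝ
  set N1 := ⟪fderiv ℝ (Sm x.1) z.1 X.1, fderiv ℝ (Sm x.1) z.1 X.1⟫_ℝ
  have n1 : 0 ≤ N1 := real_inner_self_nonneg
  have n2 : 0 ≤ N2 := real_inner_self_nonneg
  have key : ∀ {s : ℝ}, s = min (A t (Sm x.2 z.2 0))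
      (A t (Sm x.2 z.2 0) + B t (Sm x.2 z.2 0) * (1 - Sm x.2 z.2 0 ^ 2)) →
      s * N2 ≤ A t (Sm x.2 z.2 0) * N2 + B t (Sm x.2 z.2 0) * (T 0 * T 0) := by
    rintro s rfl
    rcases le_total 0 (B t (Sm x.2 z.2 0)) with hb | hb
    · have := mul_le_mul_of_nonneg_right (min_le_left (A t (Sm x.2 z.2 0))
        (A t (Sm x.2 z.2 0) + B t (Sm x.2 z.2 0) * (1 - Sm x.2 z.2 0 ^ 2))) n2
      nlinarith [mul_nonneg hb (mul_self_nonneg (T 0))]
    · have := mul_le_mul_of_nonneg_right (min_le_right (A t (Sm x.2 z.2 0))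
        (A t (Sm x.2 z.2 0) + B t (Sm x.2 z.2 0) * (1 - Sm x.2 z.2 0 ^ 2))) n2
      nlinarith [mul_le_mul_of_nonpos_left h1 hb]
  have k1 := key rfl
  have s0 := lt_min a0 b0
  by_cases hx1 : X.1 = 0
  · have hx2 : X.2 ≠ 0 := fun h => hX0 (Prod.ext hx1 h)
    have : 0 < N2 := by
      rw [h3]; exact mul_pos c2 (real_inner_self_pos.2 hx2)
    nlinarith [mul_pos s0 this, mul_nonneg w0.le n1]
  · have : 0 < N1 := by
      rw [h2]; exact mul_pos c1 (real_inner_self_pos.2 hx1)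
    nlinarith [mul_nonneg s0.le n2, mul_pos w0 this]

theorem contDiff_ht (v : Sp n) : ContDiff ℝ ∞ fun y : En n => Sm v y 0 :=
  (EuclideanSpace.proj (0 : Fin (n + 1)) : En (n + 1) →L[ℝ] ℝ).contDiff.comp (contDiff_Sm v)

theorem contDiff_dht (v : Sp n) (X : En n) :
    ContDiff ℝ ∞ fun y : En n => fderiv ℝ (Sm v) y X 0 :=
  (EuclideanSpace.proj (0 : Fin (n + 1)) : En (n + 1) →L[ℝ] ℝ).contDiff.comp
    (((contDiff_Sm v (k := ∞)).fderiv_right (m := ∞) (by simp)).clm_apply contDiff_const)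

theorem contDiff_conf : ContDiff ℝ ∞ fun y : En n => 16 / (‖y‖ ^ 2 + 4) ^ 2 :=
  contDiff_const.div ((contDiff_nsq.add contDiff_const).pow 2) fun y => by
    have := den_pos y; positivity

theorem contDiffOn_fam {W A B : ℝ → ℝ → ℝ} {J : Set ℝ}
    (hW : ContDiffOn ℝ ∞ (fun p : ℝ × ℝ => W p.1 p.2) (J ×ˢ Icc (-1) 1))
    (hA : ContDiffOn ℝ ∞ (fun p : ℝ × ℝ => A p.1 p.2) (J ×ˢ Icc (-1) 1))
    (hB : ContDiffOn ℝ ∞ (fun p : ℝ × ℝ => B p.1 p.2) (J ×ˢ Icc (-1) 1)) (x : MM q)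
    (i j : Fin (2 + (q + 1))) :
    ContDiffOn ℝ ∞ (fun p : ℝ × En (2 + (q + 1)) =>
      famCoeff (II q) (ph q) (MM q) (fam q W A B) x p.1 p.2 i j) (J ×ˢ univ) := by
  simp only [famCoeff_fam]
  have hz : ContDiff ℝ ∞ fun p : ℝ × En (2 + (q + 1)) => (ph q).symm p.2 :=
    (ph q).symm.contDiff.comp contDiff_snd
  have hm : ContDiff ℝ ∞ fun p : ℝ × En (2 + (q + 1)) => (p.1, Sm x.2 ((ph q).symm p.2).2 0) :=
    contDiff_fst.prodMk ((contDiff_ht x.2).comp hz.snd)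
  have hmaps : MapsTo (fun p : ℝ × En (2 + (q + 1)) => (p.1, Sm x.2 ((ph q).symm p.2).2 0))
      (J ×ˢ univ) (J ×ˢ Icc (-1) 1) := fun p hp => ⟨hp.1, Sm_mem _ _⟩
  refine ContDiffOn.add (ContDiffOn.add ?_ ?_) ?_
  · exact (hW.comp hm.contDiffOn hmaps).mul
      ((contDiff_conf.comp hz.fst).mul contDiff_const).contDiffOn
  · exact (hA.comp hm.contDiffOn hmaps).mul
      ((contDiff_conf.comp hz.snd).mul contDiff_const).contDiffOn
  · exact (hB.comp hm.contDiffOn hmaps).mul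
      (((contDiff_dht x.2 _).comp hz.snd).mul ((contDiff_dht x.2 _).comp hz.snd)).contDiffOn

/-- **the family is a smooth family of metrics** -/
theorem smooth_fam {W A B : ℝ → ℝ → ℝ} {T : ℝ}
    (hW : ContDiffOn ℝ ∞ (fun p : ℝ × ℝ => W p.1 p.2) (Ico 0 T ×ˢ Icc (-1) 1))
    (hA : ContDiffOn ℝ ∞ (fun p : ℝ × ℝ => A p.1 p.2) (Ico 0 T ×ˢ Icc (-1) 1))
    (hB : ContDiffOn ℝ ∞ (fun p : ℝ × ℝ => B p.1 p.2) (Ico 0 T ×ˢ Icc (-1) 1))
    (pW : ∀ t ∈ Ico 0 T, ∀ h ∈ Icc (-1 : ℝ) 1, 0 < W t h)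
    (pA : ∀ t ∈ Ico 0 T, ∀ h ∈ Icc (-1 : ℝ) 1, 0 < A t h)
    (pB : ∀ t ∈ Ico 0 T, ∀ h ∈ Icc (-1 : ℝ) 1, 0 < A t h + B t h * (1 - h ^ 2)) :
    IsSmoothMetricFamilyOn (II q) (ph q) (MM q) (fam q W A B) T := by
  intro x
  refine ⟨fun i j => ?_, fun t ht y _ => posDef_fam (pW t ht) (pA t ht) (pB t ht) x y⟩
  rw [famTarget_eq]
  exact contDiffOn_fam hW hA hB x i j

end Crest.Agent.N207.S.Gb
end
end

-- ▼ part N207/S/Gb4
section

/-!
Row 207, S0320, geometry part G2 (helper49), file 4: `RedFlow → ChartFlow → S0320`.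
-/

set_option autoImplicit false

open scoped ContDiff Manifold Topology InnerProductSpace
open Set Filter
open Crest.GeometryTopology.CoordMetric Crest.GeometryTopology.MetricFamily
open Crest.Agent.N207.S.Geo

noncomputable section

namespace Crest.Agent.N207.S.Gb

variable {q : ℕ}

theorem ph_fst (y : En (2 + (q + 1))) (i : Fin 2) :
    ((ph q).symm y).1 i = y (Fin.castAdd (q + 1) i) := by simp

theorem ph_snd (y : En (2 + (q + 1))) (i : Fin (q + 1)) :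
    ((ph q).symm y).2 i = y (Fin.natAdd 2 i) := by simp

theorem e1_cast (i : Fin 2) : e1 (q + 1) (Fin.castAdd (q + 1) i) = 1 :=
  if_pos i.isLt

theorem e1_nat (i : Fin (q + 1)) : e1 (q + 1) (Fin.natAdd 2 i) = 0 :=
  if_neg (by rw [Fin.val_natAdd]; omega)

theorem inner_fst (y z : En (2 + (q + 1))) :
    ⟪((ph q).symm y).1, ((ph q).symm z).1⟫_ℝ = ∑ i, e1 (q + 1) i * (y i * z i) := by
  rw [Fin.sum_univ_add, PiLp.inner_apply]
  simp only [e1_cast, e1_nat, zero_mul, one_mul, Finset.sum_const_zero, add_zero, ph_fst,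
    RCLike.inner_apply, conj_trivial]
  exact Finset.sum_congr rfl fun i _ => mul_comm _ _

theorem inner_snd (y z : En (2 + (q + 1))) :
    ⟪((ph q).symm y).2, ((ph q).symm z).2⟫_ℝ = ∑ i, co (e1 (q + 1)) i * (y i * z i) := by
  rw [Fin.sum_univ_add, PiLp.inner_apply]
  simp only [co, e1_cast, e1_nat, sub_self, sub_zero, zero_mul, one_mul, Finset.sum_const_zero,
    zero_add, ph_snd, RCLike.inner_apply, conj_trivial]
  exact Finset.sum_congr rfl fun i _ => mul_comm _ _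

theorem nsq_fst (y : En (2 + (q + 1))) : nsq (e1 (q + 1)) y = ‖((ph q).symm y).1‖ ^ 2 := by
  rw [← real_inner_self_eq_norm_sq, inner_fst, nsq]
  exact Finset.sum_congr rfl fun i _ => by ring

theorem nsq_snd (y : En (2 + (q + 1))) : nsq (co (e1 (q + 1))) y = ‖((ph q).symm y).2‖ ^ 2 := by
  rw [← real_inner_self_eq_norm_sq, inner_snd, nsq]
  exact Finset.sum_congr rfl fun i _ => by ring

theorem sum_single_mul {m : ℕ} (ε : Fin m → ℝ) (i j : Fin m) :
    ∑ k, ε k * ((EuclideanSpace.single i 1 : En m) k * (EuclideanSpace.single j 1 : En m) k)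
      = if i = j then ε i else 0 := by
  rw [Finset.sum_eq_single i]
  · by_cases h : i = j
    · subst h; simp
    · simp [h]
  · intro k _ hk; simp [hk]
  · intro h; exact absurd (Finset.mem_univ _) h

/-- the tangential part of the axis in the product chart -/
def ll (x : MM q) : En (2 + (q + 1)) := ph q (0, lv x.2)

theorem ll_cast (x : MM q) (i : Fin 2) : ll x (Fin.castAdd (q + 1) i) = 0 := by
  rw [← ph_fst, ll, ContinuousLinearEquiv.symm_apply_apply]; rfl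

theorem ll_nat (x : MM q) (i : Fin (q + 1)) : ll x (Fin.natAdd 2 i) = lv x.2 i := by
  rw [← ph_snd, ll, ContinuousLinearEquiv.symm_apply_apply]

theorem sum_ll (x : MM q) (y : En (2 + (q + 1))) :
    ∑ i, ll x i * y i = ⟪lv x.2, ((ph q).symm y).2⟫_ℝ := by
  rw [Fin.sum_univ_add, PiLp.inner_apply]
  simp only [ll_cast, ll_nat, zero_mul, Finset.sum_const_zero, zero_add, ph_snd,
    RCLike.inner_apply, conj_trivial]
  exact Finset.sum_congr rfl fun i _ => mul_comm _ _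

theorem adm (x : MM q) : Adm (q + 1) (ll x) (ht x) := by
  constructor
  · intro i hi
    have : i = Fin.castAdd (q + 1) ⟨i.val, hi⟩ := Fin.ext rfl
    rw [this, ll_cast]
  · have h := sum_ll x (ll x)
    rw [ll, ContinuousLinearEquiv.symm_apply_apply, real_inner_self_eq_norm_sq, norm_lv] at h
    rw [ht, ← h, ll]
    exact Finset.sum_congr rfl fun i _ => by ring

theorem hh_eq (x : MM q) :
    hh (e1 (q + 1)) (ll x) (ht x) = fun y => Sm x.2 ((ph q).symm y).2 0 := by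
  funext y
  rw [hh, sum_ll, nsq_snd, Sm_apply_zero, ht]

theorem pderiv_hh (x : MM q) (y : En (2 + (q + 1))) (i : Fin (2 + (q + 1))) :
    pderiv i (hh (e1 (q + 1)) (ll x) (ht x)) y =
      fderiv ℝ (Sm x.2) ((ph q).symm y).2 ((ph q).symm (EuclideanSpace.single i 1)).2 0 := by
  rw [hh_eq, pderiv]
  have h1 : HasFDerivAt (fun y : En (2 + (q + 1)) => ((ph q).symm y).2)
      ((ContinuousLinearMap.snd ℝ _ _).comp ((ph q).symm : En (2 + (q + 1)) →L[ℝ] EH q)) y :=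
    hasFDerivAt_snd.comp y (ph q).symm.hasFDerivAt
  have h2 := ((contDiff_Sm x.2 (k := 1)).differentiable one_ne_zero
    ((ph q).symm y).2).hasFDerivAt.comp y h1
  have h3 := (EuclideanSpace.proj (0 : Fin (q + 1 + 1)) :
    En (q + 1 + 1) →L[ℝ] ℝ).hasFDerivAt.comp y h2
  exact congrArg (fun L : En (2 + (q + 1)) →L[ℝ] ℝ => L (EuclideanSpace.single i 1)) h3.fderiv

/-- **the coefficients are the model metric** -/
theorem famCoeff_Gm (W A B : ℝ → ℝ → ℝ) (x : MM q) (t : ℝ) :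
    famCoeff (II q) (ph q) (MM q) (fam q W A B) x t =
      Gm (e1 (q + 1)) (ll x) (ht x) (W t) (A t) (B t) := by
  funext y
  ext i j
  rw [famCoeff_fam, inner_fst, inner_snd, sum_single_mul, sum_single_mul, ← pderiv_hh, ← pderiv_hh]
  simp only [Gm, Matrix.of_apply, rnd, nsq_fst, nsq_snd]
  rw [hh_eq]
  split_ifs <;> ring

/-- the statement of S0320 for a given `q` -/
def Goal (q : ℕ) : Prop :=
  ∃ T : ℝ, 0 < T ∧ ∃ g : FormFamily (II q) (MM q),
    IsRicciFlowOn (II q) (ph q) (MM q) g T ∧ HasBoundedScalarCurvature (II q) (ph q) (MM q) g T ∧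
      CurvatureBlowsUpAt (II q) (ph q) (MM q) g T

theorem smH_shift {a T c : ℝ} {F : ℝ → ℝ → ℝ} (h : SmH a T F) (hc : a < c) :
    ContDiffOn ℝ ∞ (fun p : ℝ × ℝ => F (p.1 + c) p.2) (Ico 0 (T - c) ×ˢ Icc (-1) 1) := by
  intro p hp
  have h1 := h (p.1 + c) ⟨by linarith [hp.1.1], by linarith [hp.1.2]⟩ p.2 hp.2
  have h2 : ContDiffAt ℝ ∞ (fun p : ℝ × ℝ => (p.1 + c, p.2)) p := by fun_prop
  exact (ContDiffAt.comp p (g := fun p : ℝ × ℝ => F p.1 p.2) h1 h2).contDiffWithinAt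

/-- the south pole -/
def sp (q : ℕ) : MM q :=
  (⟨EuclideanSpace.single 0 1, by simp⟩, ⟨EuclideanSpace.single 0 (-1), by simp⟩)

theorem ht_sp : ht (sp q) = -1 := by simp [ht, sp]

/-- **G2** -/
theorem g2 {a T : ℝ} {W A B : ℝ → ℝ → ℝ} (R : RedFlow q a T W A B) (C : ChartFlow q a T W A B) :
    Goal q := by
  set c := (a + T) / 2 with hc
  have hac : a < c := by linarith [R.lt]
  have hcT : c < T := by linarith [R.lt]
  have hm : ∀ t ∈ Ico 0 (T - c), t + c ∈ Ioo a T := fun t ht =>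
    ⟨by linarith [ht.1], by linarith [ht.2]⟩
  refine ⟨T - c, by linarith, fam q (fun t => W (t + c)) (fun t => A (t + c)) (fun t => B (t + c)),
    ⟨smooth_fam (smH_shift R.smW hac) (smH_shift R.smA hac) (smH_shift R.smB hac)
      (fun t ht => R.posW _ (hm t ht)) (fun t ht => R.posA _ (hm t ht))
      (fun t ht => R.posS _ (hm t ht)), ?_⟩, ?_, ?_⟩
  · intro x t ht i j
    simp only [famCoeff_Gm, famCentre_eq]
    rw [← C.flow _ _ (adm x) _ (hm t (Ioo_subset_Ico_self ht)) i j]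
    exact deriv_comp_add_const
      (fun s => Gm (e1 (q + 1)) (ll x) (Gb.ht x) (W s) (A s) (B s) 0 i j) c t
  · obtain ⟨K, hK⟩ := C.scal
    refine ⟨K, fun t ht x => ?_⟩
    rw [famCoeff_Gm, famCentre_eq]
    exact hK _ _ (adm x) _ (hm t ht)
  · intro K
    obtain ⟨t₀, h0, h1⟩ := C.blow K
    refine ⟨t₀ - c, by linarith, fun t ht ht' => ⟨sp q, ?_⟩⟩
    rw [famCoeff_Gm, famCentre_eq, ht_sp]
    have h2 := adm (sp q)
    rw [ht_sp] at h2
    exact h1 _ (by linarith) (by linarith) _ h2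

/-- **geometry**: from the gauge solution to the statement -/
theorem geo_of (h1 : G1) (h3 : G3) {a T : ℝ} {W X z Y v : ℝ → ℝ → ℝ}
    (h : GaugeSol q a T W X z Y v) : Goal q := by
  obtain ⟨a', W', A, B, R⟩ := h3 _ _ _ _ _ _ _ _ h
  exact g2 R (h1 _ _ _ _ _ _ R)

open Bundle Crest.GeometryTopology.ChartCurvature Crest Crest.GeometryTopology in
/-- the frozen statement from `Goal` -/
theorem s0320_of (hq : 10 ≤ q) (h : Goal q) :
    ∃ q : ℕ, 10 ≤ q ∧ ∃ T : ℝ, 0 < T ∧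
      ∃ g : FormFamily ((𝓡 2).prod (𝓡 (q + 1)))
          (Metric.sphere (0 : EuclideanSpace ℝ (Fin (2 + 1))) 1 × Metric.sphere (0 : EuclideanSpace ℝ (Fin (q + 1 + 1))) 1),
        IsRicciFlowOn ((𝓡 2).prod (𝓡 (q + 1)))
            (@EuclideanSpace.finAddEquivProd ℝ _ 2 (q + 1)).symm
            (Metric.sphere (0 : EuclideanSpace ℝ (Fin (2 + 1))) 1 × Metric.sphere (0 : EuclideanSpace ℝ (Fin (q + 1 + 1))) 1) g T ∧
          HasBoundedScalarCurvature ((𝓡 2).prod (𝓡 (q + 1)))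
            (@EuclideanSpace.finAddEquivProd ℝ _ 2 (q + 1)).symm
            (Metric.sphere (0 : EuclideanSpace ℝ (Fin (2 + 1))) 1 × Metric.sphere (0 : EuclideanSpace ℝ (Fin (q + 1 + 1))) 1) g T ∧
          CurvatureBlowsUpAt ((𝓡 2).prod (𝓡 (q + 1)))
            (@EuclideanSpace.finAddEquivProd ℝ _ 2 (q + 1)).symm
            (Metric.sphere (0 : EuclideanSpace ℝ (Fin (2 + 1))) 1 × Metric.sphere (0 : EuclideanSpace ℝ (Fin (q + 1 + 1))) 1) g T :=
  ⟨q, hq, h⟩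

end Crest.Agent.N207.S.Gb
end
end

-- ▼ part N207/S/G1a
section
/-!
Row 207 / S0320 geometry, G1a: a small calculus for `pderiv`, and the height function `hh`.
-/

set_option autoImplicit false
open scoped ContDiff Topology
open Set Filter Crest.GeometryTopology.CoordMetric

noncomputable section

namespace Crest.Agent.N207.S.Geo

variable {m : ℕ}

/-- Kronecker delta. -/
def dl (i j : Fin m) : ℝ := if i = j then 1 else 0

lemma dl_self (i : Fin m) : dl i i = 1 := by simp [dl]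
lemma dl_ne {i j : Fin m} (h : i ≠ j) : dl i j = 0 := by simp [dl, h]
lemma dl_comm (i j : Fin m) : dl i j = dl j i := by simp [dl, eq_comm]
lemma sum_dl (i : Fin m) (f : Fin m → ℝ) : ∑ k, dl k i * f k = f i := by simp [dl]
lemma sum_dl' (i : Fin m) (f : Fin m → ℝ) : ∑ k, dl i k * f k = f i := by simp [dl]

/-- `f` is differentiable at `x` with partial derivatives `d`. -/
def HP (f : EuclideanSpace ℝ (Fin m) → ℝ) (x : EuclideanSpace ℝ (Fin m)) (d : Fin m → ℝ) : Prop :=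
  DifferentiableAt ℝ f x ∧ ∀ k, pderiv k f x = d k

namespace HP

variable {f g : EuclideanSpace ℝ (Fin m) → ℝ} {x : EuclideanSpace ℝ (Fin m)} {d e : Fin m → ℝ}

lemma congr_d (h : HP f x d) (hd : ∀ k, d k = e k) : HP f x e :=
  ⟨h.1, fun k => (h.2 k).trans (hd k)⟩

lemma congr_ev (h : HP f x d) (hg : g =ᶠ[𝓝 x] f) : HP g x d :=
  ⟨hg.differentiableAt_iff.2 h.1, fun k => by
    rw [← h.2 k]; unfold pderiv; rw [hg.fderiv_eq]⟩

lemma congr_f (h : HP f x d) (hg : ∀ y, g y = f y) : HP g x d :=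
  h.congr_ev (Eventually.of_forall hg)

lemma const (c : ℝ) (x : EuclideanSpace ℝ (Fin m)) : HP (fun _ => c) x (fun _ => 0) :=
  ⟨differentiableAt_const c, fun k => by simp [pderiv]⟩

lemma coord (i : Fin m) (x : EuclideanSpace ℝ (Fin m)) : HP (fun y => y i) x (fun k => dl i k) := by
  have h : HasFDerivAt (fun y : EuclideanSpace ℝ (Fin m) => y i)
      (EuclideanSpace.proj i : EuclideanSpace ℝ (Fin m) →L[ℝ] ℝ) x :=
    (EuclideanSpace.proj i : EuclideanSpace ℝ (Fin m) →L[ℝ] ℝ).hasFDerivAt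
  refine ⟨h.differentiableAt, fun k => ?_⟩
  unfold pderiv; rw [h.fderiv]; simp [dl]

lemma add (hf : HP f x d) (hg : HP g x e) : HP (fun y => f y + g y) x (fun k => d k + e k) :=
  ⟨hf.1.add hg.1, fun k => by
    beta_reduce; rw [← hf.2 k, ← hg.2 k]; unfold pderiv; rw [fderiv_fun_add hf.1 hg.1]; simp⟩

lemma sub (hf : HP f x d) (hg : HP g x e) : HP (fun y => f y - g y) x (fun k => d k - e k) :=
  ⟨hf.1.sub hg.1, fun k => by
    beta_reduce; rw [← hf.2 k, ← hg.2 k]; unfold pderiv; rw [fderiv_fun_sub hf.1 hg.1]; simp⟩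

lemma mul (hf : HP f x d) (hg : HP g x e) :
    HP (fun y => f y * g y) x (fun k => d k * g x + f x * e k) :=
  ⟨hf.1.mul hg.1, fun k => by
    beta_reduce; rw [← hf.2 k, ← hg.2 k]; unfold pderiv; rw [fderiv_fun_mul hf.1 hg.1]; simp; ring⟩

lemma cmul (c : ℝ) (hf : HP f x d) : HP (fun y => c * f y) x (fun k => c * d k) :=
  ((const c x).mul hf).congr_d fun k => by simp

lemma comp {F : ℝ → ℝ} {F' : ℝ} (hf : HP f x d) (hF : HasDerivAt F F' (f x)) :
    HP (fun y => F (f y)) x (fun k => F' * d k) := by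
  have h := hF.comp_hasFDerivAt x hf.1.hasFDerivAt
  refine ⟨h.differentiableAt, fun k => ?_⟩
  beta_reduce; rw [← hf.2 k]; unfold pderiv
  have : fderiv ℝ (fun y => F (f y)) x = F' • fderiv ℝ f x := h.fderiv
  rw [this]; simp

lemma inv (hf : HP f x d) (h0 : f x ≠ 0) : HP (fun y => (f y)⁻¹) x (fun k => -(d k) / f x ^ 2) :=
  (hf.comp (hasDerivAt_inv h0)).congr_d fun k => by ring

lemma div (hf : HP f x d) (hg : HP g x e) (h0 : g x ≠ 0) :
    HP (fun y => f y / g y) x (fun k => (d k * g x - f x * e k) / g x ^ 2) :=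
  ((hf.mul (hg.inv h0)).congr_f fun y => by rw [div_eq_mul_inv]).congr_d fun k => by
    field_simp; ring

lemma sq (hf : HP f x d) : HP (fun y => f y ^ 2) x (fun k => 2 * f x * d k) :=
  ((hf.mul hf).congr_f fun y => by ring).congr_d fun k => by ring

lemma sum {ι : Type*} (s : Finset ι) {F : ι → EuclideanSpace ℝ (Fin m) → ℝ} {D : ι → Fin m → ℝ}
    (h : ∀ i ∈ s, HP (F i) x (D i)) : HP (fun y => ∑ i ∈ s, F i y) x (fun k => ∑ i ∈ s, D i k) := by
  classical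
  induction s using Finset.induction_on with
  | empty => simpa using const 0 x
  | insert a s ha ih =>
    simp only [Finset.sum_insert ha]
    exact (h a (Finset.mem_insert_self _ _)).add
      (ih fun i hi => h i (Finset.mem_insert_of_mem hi))

end HP

/-- Block data: `ε` is an indicator, `l` lives in the complementary block, `|l|² = 1 - h0²`. -/
structure Blk (ε l : Fin m → ℝ) (h0 : ℝ) : Prop where
  idem : ∀ i, ε i = 0 ∨ ε i = 1
  blk : ∀ i, ε i = 1 → l i = 0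
  nrm : ∑ i, l i ^ 2 = 1 - h0 ^ 2

lemma Adm.toBlk {n : ℕ} {l : Fin (2 + n) → ℝ} {h0 : ℝ} (h : Adm n l h0) : Blk (e1 n) l h0 where
  idem i := by unfold e1; split_ifs <;> simp
  blk i hi := h.blk i (by by_contra hc; simp [e1, hc] at hi)
  nrm := h.nrm

lemma nsq_nonneg {ε : Fin m → ℝ} (h : ∀ i, 0 ≤ ε i) (y : EuclideanSpace ℝ (Fin m)) : 0 ≤ nsq ε y :=
  Finset.sum_nonneg fun i _ => mul_nonneg (h i) (sq_nonneg _)

lemma nsq_zero (ε : Fin m → ℝ) : nsq ε 0 = 0 := by simp [nsq]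

lemma rnd_zero (ε : Fin m → ℝ) : rnd ε 0 = 1 := by simp [rnd, nsq_zero]; norm_num

lemma hh_zero (ε l : Fin m → ℝ) (h0 : ℝ) : hh ε l h0 0 = h0 := by simp [hh, nsq_zero]

lemma HP_nsq (ε : Fin m → ℝ) (x : EuclideanSpace ℝ (Fin m)) :
    HP (nsq ε) x (fun k => 2 * ε k * x k) := by
  refine (HP.sum Finset.univ fun i _ => ((HP.coord i x).sq.cmul (ε i))).congr_d fun k => ?_
  simp [dl]; ring

lemma HP_lin (l : Fin m → ℝ) (x : EuclideanSpace ℝ (Fin m)) :
    HP (fun y => ∑ i, l i * y i) x l := by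
  refine (HP.sum Finset.univ fun i _ => ((HP.coord i x).cmul (l i))).congr_d fun k => ?_
  simp [dl]


namespace Blk

variable {ε l : Fin m → ℝ} {h0 : ℝ}

lemma e_nonneg (H : Blk ε l h0) (i : Fin m) : 0 ≤ ε i := by rcases H.idem i with h | h <;> simp [h]
lemma co_nonneg (H : Blk ε l h0) (i : Fin m) : 0 ≤ co ε i := by
  rcases H.idem i with h | h <;> simp [co, h]
lemma N1_pos (H : Blk ε l h0) (y : EuclideanSpace ℝ (Fin m)) : 0 < nsq ε y + 4 := by
  have := nsq_nonneg H.e_nonneg y; linarith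
lemma N2_pos (H : Blk ε l h0) (y : EuclideanSpace ℝ (Fin m)) : 0 < nsq (co ε) y + 4 := by
  have := nsq_nonneg H.co_nonneg y; linarith
lemma rnd1_pos (H : Blk ε l h0) (y : EuclideanSpace ℝ (Fin m)) : 0 < rnd ε y := by
  have := H.N1_pos y; unfold rnd; positivity
lemma rnd2_pos (H : Blk ε l h0) (y : EuclideanSpace ℝ (Fin m)) : 0 < rnd (co ε) y := by
  have := H.N2_pos y; unfold rnd; positivity
lemma co_l (H : Blk ε l h0) (i : Fin m) : co ε i * l i = l i := by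
  rcases H.idem i with h | h
  · simp [co, h]
  · simp [H.blk i h]
lemma co_co (H : Blk ε l h0) (i : Fin m) : co ε i * co ε i = co ε i := by
  rcases H.idem i with h | h <;> simp [co, h]


end Blk

/-- The gradient of the height function. -/
def eta (ε l : Fin m → ℝ) (h0 : ℝ) (y : EuclideanSpace ℝ (Fin m)) (i : Fin m) : ℝ :=
  (4 * l i - 2 * co ε i * y i * (h0 + hh ε l h0 y)) / (nsq (co ε) y + 4)

/-- Half the logarithmic gradient of the round conformal factors. -/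
def lam (ε : Fin m → ℝ) (y : EuclideanSpace ℝ (Fin m)) (i : Fin m) : ℝ :=
  -2 * y i * (ε i / (nsq ε y + 4) + co ε i / (nsq (co ε) y + 4))

lemma eta_zero (ε l : Fin m → ℝ) (h0 : ℝ) (i : Fin m) : eta ε l h0 0 i = l i := by
  simp [eta, nsq_zero]

lemma lam_zero (ε : Fin m → ℝ) (i : Fin m) : lam ε 0 i = 0 := by simp [lam]

namespace Blk

variable {ε l : Fin m → ℝ} {h0 : ℝ}

lemma HP_hh (H : Blk ε l h0) (y : EuclideanSpace ℝ (Fin m)) : HP (hh ε l h0) y (eta ε l h0 y) := by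
  have hN := (H.N2_pos y).ne'
  have h1 := (((HP_lin l y).cmul 4).add (((HP.const 4 y).sub (HP_nsq (co ε) y)).mul
    (HP.const h0 y))).div ((HP_nsq (co ε) y).add (HP.const 4 y)) hN
  refine h1.congr_d fun k => ?_
  simp only [eta, hh]
  field_simp
  ring

lemma pderiv_hh (H : Blk ε l h0) (y : EuclideanSpace ℝ (Fin m)) (i : Fin m) :
    pderiv i (hh ε l h0) y = eta ε l h0 y i := (H.HP_hh y).2 i

lemma eta_e (H : Blk ε l h0) (y : EuclideanSpace ℝ (Fin m)) {i : Fin m} (hi : ε i = 1) :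
    eta ε l h0 y i = 0 := by simp [eta, co, hi, H.blk i hi]


lemma lin_eq (H : Blk ε l h0) (y : EuclideanSpace ℝ (Fin m)) :
    4 * ∑ i, l i * y i = hh ε l h0 y * (nsq (co ε) y + 4) - (4 - nsq (co ε) y) * h0 := by
  have hN := (H.N2_pos y).ne'
  simp only [hh]; field_simp; ring

/-- `|∇h|² = 1 - h²` on the round sphere. -/
lemma sum_eta_sq (H : Blk ε l h0) (y : EuclideanSpace ℝ (Fin m)) :
    ∑ k, eta ε l h0 y k ^ 2 = rnd (co ε) y * (1 - hh ε l h0 y ^ 2) := by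
  have hN := (H.N2_pos y).ne'
  set s := h0 + hh ε l h0 y with hs
  have h1 : ∀ k, eta ε l h0 y k ^ 2 = (16 * l k ^ 2 - 16 * s * (l k * y k)
      + 4 * s ^ 2 * (co ε k * y k ^ 2)) / (nsq (co ε) y + 4) ^ 2 := by
    intro k
    simp only [eta, ← hs, div_pow]
    congr 1
    linear_combination (-16 * s * y k) * H.co_l k + (4 * s ^ 2 * y k ^ 2) * H.co_co k
  simp only [h1, ← Finset.sum_div, Finset.sum_add_distrib, Finset.sum_sub_distrib,
    ← Finset.mul_sum, H.nrm]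
  have h2 := H.lin_eq y
  have h3 : ∑ k, co ε k * y k ^ 2 = nsq (co ε) y := rfl
  rw [h3, rnd, div_mul_eq_mul_div]
  congr 1
  rw [hs]
  linear_combination (-4 * (h0 + hh ε l h0 y)) * h2

lemma hh_mem (H : Blk ε l h0) (y : EuclideanSpace ℝ (Fin m)) : hh ε l h0 y ∈ Icc (-1 : ℝ) 1 := by
  have h1 := H.sum_eta_sq y
  have h2 : 0 ≤ ∑ k, eta ε l h0 y k ^ 2 := Finset.sum_nonneg fun _ _ => sq_nonneg _
  have h3 : 0 ≤ 1 - hh ε l h0 y ^ 2 := by
    rw [h1] at h2; exact le_of_mul_le_mul_left (by simpa using h2) (H.rnd2_pos y)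
  constructor <;> nlinarith

lemma h0_mem (H : Blk ε l h0) : h0 ∈ Icc (-1 : ℝ) 1 := by
  simpa [hh_zero] using H.hh_mem 0

lemma HP_rnd1 (H : Blk ε l h0) (y : EuclideanSpace ℝ (Fin m)) :
    HP (rnd ε) y (fun k => 2 * rnd ε y * (ε k * lam ε y k)) := by
  have hN := (H.N1_pos y).ne'
  have hN2 := (H.N2_pos y).ne'
  have h1 := (HP.const 16 y).div ((HP_nsq ε y).add (HP.const 4 y)).sq (pow_ne_zero 2 hN)
  refine h1.congr_d fun k => ?_
  simp only [rnd, lam, co]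
  rcases H.idem k with h | h <;> simp only [h] <;> field_simp <;> ring

lemma HP_rnd2 (H : Blk ε l h0) (y : EuclideanSpace ℝ (Fin m)) :
    HP (rnd (co ε)) y (fun k => 2 * rnd (co ε) y * (co ε k * lam ε y k)) := by
  have hN := (H.N1_pos y).ne'
  have hN2 := (H.N2_pos y).ne'
  have h1 := (HP.const 16 y).div ((HP_nsq (co ε) y).add (HP.const 4 y)).sq (pow_ne_zero 2 hN2)
  refine h1.congr_d fun k => ?_
  have hc : co ε k = 1 - ε k := rfl
  simp only [rnd, lam, hc]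
  rcases H.idem k with h | h <;> simp only [h] <;> field_simp <;> ring

/-- `Σ co_k λ_k η_k`. -/
lemma sum_lam_eta (H : Blk ε l h0) (y : EuclideanSpace ℝ (Fin m)) :
    ∑ k, lam ε y k * eta ε l h0 y k =
      2 * (h0 + hh ε l h0 y) / (nsq (co ε) y + 4) - hh ε l h0 y * rnd (co ε) y := by
  have hN := (H.N2_pos y).ne'
  have hN1 := (H.N1_pos y).ne'
  set s := h0 + hh ε l h0 y with hs
  have h1 : ∀ k, lam ε y k * eta ε l h0 y k = (-8 * (l k * y k)
      + 4 * s * (co ε k * y k ^ 2)) / (nsq (co ε) y + 4) ^ 2 := by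
    intro k
    have hc : co ε k = 1 - ε k := rfl
    simp only [eta, lam, ← hs, hc]
    rcases H.idem k with h | h
    · simp only [h]; field_simp; ring
    · simp [h, H.blk k h]
  simp only [h1, ← Finset.sum_div, Finset.sum_add_distrib, ← Finset.mul_sum]
  have h2 := H.lin_eq y
  have h3 : ∑ k, co ε k * y k ^ 2 = nsq (co ε) y := rfl
  rw [h3, rnd]
  field_simp
  rw [hs]
  linear_combination (-2) * h2

/-- The Hessian of the height function. -/
lemma HP_eta (H : Blk ε l h0) (y : EuclideanSpace ℝ (Fin m)) (i : Fin m) :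
    HP (fun y => eta ε l h0 y i) y (fun k => -(2 * (h0 + hh ε l h0 y) / (nsq (co ε) y + 4)) *
      (co ε i * dl i k) + co ε i * lam ε y i * eta ε l h0 y k
      + co ε k * lam ε y k * eta ε l h0 y i) := by
  have hN := (H.N2_pos y).ne'
  have hN1 := (H.N1_pos y).ne'
  have h1 := ((HP.const (4 * l i) y).sub (((HP.coord i y).cmul (2 * co ε i)).mul
    ((HP.const h0 y).add (H.HP_hh y)))).div ((HP_nsq (co ε) y).add (HP.const 4 y)) hN
  refine h1.congr_d fun k => ?_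
  have e1 : co ε i * lam ε y i = -2 * co ε i * y i / (nsq (co ε) y + 4) := by
    have hc : co ε i = 1 - ε i := rfl
    simp only [lam, hc]
    rcases H.idem i with h | h <;> simp only [h] <;> field_simp <;> ring
  have e2 : co ε k * lam ε y k = -2 * co ε k * y k / (nsq (co ε) y + 4) := by
    have hc : co ε k = 1 - ε k := rfl
    simp only [lam, hc]
    rcases H.idem k with h | h <;> simp only [h] <;> field_simp <;> ring
  rw [e1, e2]
  have e3 : eta ε l h0 y i = (4 * l i - 2 * co ε i * y i * (h0 + hh ε l h0 y)) /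
    (nsq (co ε) y + 4) := rfl
  rw [e3]
  field_simp
  ring

lemma HP_lam_zero (H : Blk ε l h0) (i : Fin m) :
    HP (fun y => lam ε y i) 0 (fun k => -(1 / 2) * dl i k) := by
  have hN := (H.N2_pos 0).ne'
  have hN1 := (H.N1_pos 0).ne'
  have h1 := ((HP.coord i 0).cmul (-2)).mul
    (((HP.const (ε i) 0).div ((HP_nsq ε 0).add (HP.const 4 0)) hN1).add
      ((HP.const (co ε i) 0).div ((HP_nsq (co ε) 0).add (HP.const 4 0)) hN))
  refine h1.congr_d fun k => ?_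
  simp [nsq_zero, co]
  ring

end Blk

end Crest.Agent.N207.S.Geo

end
end

-- ▼ part N207/S/G1b
section
/-!
Row 207 / S0320 geometry, G1b: inverse and Christoffel symbols of the chart metric `Gm`.
-/

set_option autoImplicit false
open scoped ContDiff Topology
open Set Filter Crest.GeometryTopology.CoordMetric

noncomputable section

namespace Crest.Agent.N207.S.Geo

variable {m : ℕ}

lemma christoffel_of_inv (g : MetricField m) (y : EuclideanSpace ℝ (Fin m))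
    (Gi : Matrix (Fin m) (Fin m) ℝ) (hG : g y * Gi = 1) (Γ : Fin m → ℝ) (i j : Fin m)
    (h : ∀ l, ∑ a, g y l a * Γ a = (1 / 2) * (pderiv i (fun y => g y j l) y +
      pderiv j (fun y => g y i l) y - pderiv l (fun y => g y i j) y)) (k : Fin m) :
    christoffel g y k i j = Γ k := by
  have h1 : (g y)⁻¹ = Gi := Matrix.inv_eq_right_inv hG
  have h2 : Gi * g y = 1 := mul_eq_one_comm.1 hG
  unfold christoffel inverseField
  rw [h1, Finset.mul_sum]
  have h3 : ∀ l, (1 / 2) * (Gi k l * (pderiv i (fun y => g y j l) y +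
      pderiv j (fun y => g y i l) y - pderiv l (fun y => g y i j) y)) =
      ∑ a, Gi k l * g y l a * Γ a := by
    intro l
    rw [mul_left_comm, ← h l, Finset.mul_sum]
    exact Finset.sum_congr rfl fun a _ => by ring
  simp only [h3]
  rw [Finset.sum_comm]
  have h4 : ∀ a, ∑ l, Gi k l * g y l a * Γ a = dl k a * Γ a := by
    intro a
    rw [← Finset.sum_mul, ← Matrix.mul_apply, h2, Matrix.one_apply]; rfl
  simp only [h4, sum_dl']

/-- `S = A + B (1-h²)`. -/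
def SS (A B : ℝ → ℝ) : ℝ → ℝ := fun h => A h + B h * (1 - h ^ 2)
/-- `F'/(2F)`. -/
def cw (F : ℝ → ℝ) : ℝ → ℝ := fun h => deriv F h / (2 * F h)
/-- `-W'/(2S)`. -/
def cb1 (W A B : ℝ → ℝ) : ℝ → ℝ := fun h => -deriv W h / (2 * SS A B h)
/-- `-(A'+2Bh)/(2S)`. -/
def cb (A B : ℝ → ℝ) : ℝ → ℝ := fun h => -(deriv A h + 2 * B h * h) / (2 * SS A B h)
/-- `(B'/2 - A'B/A)/S`. -/
def cc (A B : ℝ → ℝ) : ℝ → ℝ := fun h => (deriv B h / 2 - deriv A h * B h / A h) / SS A B h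

/-- Same-block indicator. -/
def sb (ε : Fin m → ℝ) (i j : Fin m) : ℝ := ε i * ε j + co ε i * co ε j

/-- Profile hypotheses at a fixed time. -/
structure Prof (W A B : ℝ → ℝ) : Prop where
  dW : ∀ h ∈ Icc (-1 : ℝ) 1, DifferentiableAt ℝ W h
  dA : ∀ h ∈ Icc (-1 : ℝ) 1, DifferentiableAt ℝ A h
  dB : ∀ h ∈ Icc (-1 : ℝ) 1, DifferentiableAt ℝ B h
  pW : ∀ h ∈ Icc (-1 : ℝ) 1, 0 < W h
  pA : ∀ h ∈ Icc (-1 : ℝ) 1, 0 < A h
  pS : ∀ h ∈ Icc (-1 : ℝ) 1, 0 < SS A B h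

section

variable (ε l : Fin m → ℝ) (h0 : ℝ) (W A B : ℝ → ℝ) (y : EuclideanSpace ℝ (Fin m))

/-- Diagonal part of `Gm`. -/
def Dg (i : Fin m) : ℝ :=
  ε i * (W (hh ε l h0 y) * rnd ε y) + co ε i * (A (hh ε l h0 y) * rnd (co ε) y)

/-- Derivative of the diagonal part. -/
def dDg (i k : Fin m) : ℝ :=
  ε i * (deriv W (hh ε l h0 y) * eta ε l h0 y k * rnd ε y +
      W (hh ε l h0 y) * (2 * rnd ε y * (ε k * lam ε y k))) +
    co ε i * (deriv A (hh ε l h0 y) * eta ε l h0 y k * rnd (co ε) y +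
      A (hh ε l h0 y) * (2 * rnd (co ε) y * (co ε k * lam ε y k)))

/-- Coordinate Hessian of `hh`. -/
def Hs (i k : Fin m) : ℝ :=
  -(2 * (h0 + hh ε l h0 y) / (nsq (co ε) y + 4)) * (co ε i * dl i k) +
    co ε i * lam ε y i * eta ε l h0 y k + co ε k * lam ε y k * eta ε l h0 y i

/-- The Christoffel symbols of `Gm` in closed form. -/
def Gam (k i j : Fin m) : ℝ :=
  dl k i * (sb ε i j * lam ε y j) + dl k j * (sb ε i j * lam ε y i)
    - dl i j * (sb ε i k * lam ε y k)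
    + (ε k * cw W (hh ε l h0 y) + co ε k * cw A (hh ε l h0 y)) *
      (eta ε l h0 y i * dl k j + eta ε l h0 y j * dl k i)
    + dl i j * ((ε i * (cb1 W A B (hh ε l h0 y) * (rnd ε y / rnd (co ε) y)) +
      co ε i * cb A B (hh ε l h0 y)) * eta ε l h0 y k)
    + cc A B (hh ε l h0 y) * (eta ε l h0 y i * eta ε l h0 y j * eta ε l h0 y k / rnd (co ε) y)

/-- The inverse of `Gm`. -/
def Ginv : Matrix (Fin m) (Fin m) ℝ := Matrix.of fun i j =>
  dl i j * (Dg ε l h0 W A y i)⁻¹ - B (hh ε l h0 y) /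
    (A (hh ε l h0 y) * SS A B (hh ε l h0 y) * rnd (co ε) y ^ 2) * (eta ε l h0 y i * eta ε l h0 y j)

end

namespace Blk

variable {ε l : Fin m → ℝ} {h0 : ℝ} {W A B : ℝ → ℝ}

lemma Gm_apply (H : Blk ε l h0) (W A B : ℝ → ℝ) (y : EuclideanSpace ℝ (Fin m)) (i j : Fin m) :
    Gm ε l h0 W A B y i j = dl i j * Dg ε l h0 W A y i +
      B (hh ε l h0 y) * (eta ε l h0 y i * eta ε l h0 y j) := by
  simp only [Gm, Matrix.of_apply, H.pderiv_hh, dl, Dg]
  split_ifs <;> simp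

lemma Dg_pos (H : Blk ε l h0) (P : Prof W A B) (y : EuclideanSpace ℝ (Fin m)) (i : Fin m) :
    0 < Dg ε l h0 W A y i := by
  have h1 := P.pW _ (H.hh_mem y)
  have h2 := P.pA _ (H.hh_mem y)
  have h3 := H.rnd1_pos y
  have h4 := H.rnd2_pos y
  rcases H.idem i with h | h <;> simp only [Dg, co, h] <;> norm_num <;> positivity

lemma Dg_eta (H : Blk ε l h0) (W A : ℝ → ℝ) (y : EuclideanSpace ℝ (Fin m)) (i : Fin m) :
    Dg ε l h0 W A y i * eta ε l h0 y i = A (hh ε l h0 y) * rnd (co ε) y * eta ε l h0 y i := by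
  rcases H.idem i with h | h
  · simp [Dg, co, h]
  · simp [H.eta_e y h]

lemma co_eta (H : Blk ε l h0) (y : EuclideanSpace ℝ (Fin m)) (i : Fin m) :
    co ε i * eta ε l h0 y i = eta ε l h0 y i := by
  rcases H.idem i with h | h
  · simp [co, h]
  · simp [H.eta_e y h]

lemma e_eta (H : Blk ε l h0) (y : EuclideanSpace ℝ (Fin m)) (i : Fin m) :
    ε i * eta ε l h0 y i = 0 := by
  rcases H.idem i with h | h
  · simp [h]
  · simp [H.eta_e y h]

lemma Gm_mul_Ginv (H : Blk ε l h0) (P : Prof W A B) (y : EuclideanSpace ℝ (Fin m)) :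
    Gm ε l h0 W A B y * Ginv ε l h0 W A B y = 1 := by
  ext i j
  have hA := (P.pA _ (H.hh_mem y)).ne'
  have hS := (P.pS _ (H.hh_mem y)).ne'
  have h2 := (H.rnd2_pos y).ne'
  have hD := fun i => (H.Dg_pos P y i).ne'
  set κ := B (hh ε l h0 y) / (A (hh ε l h0 y) * SS A B (hh ε l h0 y) * rnd (co ε) y ^ 2) with hκ
  have h1 : ∀ a, Gm ε l h0 W A B y i a * Ginv ε l h0 W A B y a j =
      dl i a * (Dg ε l h0 W A y i * (dl a j * (Dg ε l h0 W A y a)⁻¹ -
        κ * (eta ε l h0 y a * eta ε l h0 y j))) +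
      dl a j * (B (hh ε l h0 y) * eta ε l h0 y i * (eta ε l h0 y a * (Dg ε l h0 W A y a)⁻¹))
      - B (hh ε l h0 y) * κ * eta ε l h0 y i * eta ε l h0 y j * eta ε l h0 y a ^ 2 := by
    intro a
    rw [H.Gm_apply]; simp only [Ginv, Matrix.of_apply, ← hκ]; ring
  have h5 : eta ε l h0 y j * (Dg ε l h0 W A y j)⁻¹ =
      eta ε l h0 y j / (A (hh ε l h0 y) * rnd (co ε) y) := by
    have := H.Dg_eta W A y j
    have := hD j
    field_simp
    linarith
  rw [Matrix.mul_apply]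
  simp only [h1, Finset.sum_sub_distrib, Finset.sum_add_distrib, sum_dl, sum_dl', ← Finset.mul_sum,
    H.sum_eta_sq, h5]
  have h6 : Dg ε l h0 W A y i * (dl i j * (Dg ε l h0 W A y i)⁻¹ -
      κ * (eta ε l h0 y i * eta ε l h0 y j)) = dl i j -
      κ * (A (hh ε l h0 y) * rnd (co ε) y * eta ε l h0 y i) * eta ε l h0 y j := by
    rw [← H.Dg_eta W A y i]; have := hD i; field_simp
  rw [h6, Matrix.one_apply]
  have h7 : (if i = j then (1 : ℝ) else 0) = dl i j := rfl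
  rw [h7, hκ]
  have hS' : SS A B (hh ε l h0 y) = A (hh ε l h0 y) + B (hh ε l h0 y) * (1 - hh ε l h0 y ^ 2) := rfl
  rw [hS'] at hS ⊢
  field_simp
  ring

lemma HP_Dg (H : Blk ε l h0) (P : Prof W A B) (y : EuclideanSpace ℝ (Fin m)) (i : Fin m) :
    HP (fun y => Dg ε l h0 W A y i) y (dDg ε l h0 W A y i) :=
  (((((H.HP_hh y).comp (P.dW _ (H.hh_mem y)).hasDerivAt).mul (H.HP_rnd1 y)).cmul (ε i)).add
    ((((H.HP_hh y).comp (P.dA _ (H.hh_mem y)).hasDerivAt).mul (H.HP_rnd2 y)).cmul (co ε i)))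

lemma pderiv_Gm (H : Blk ε l h0) (P : Prof W A B) (y : EuclideanSpace ℝ (Fin m)) (i j k : Fin m) :
    pderiv k (fun y => Gm ε l h0 W A B y i j) y = dl i j * dDg ε l h0 W A y i k +
      (deriv B (hh ε l h0 y) * eta ε l h0 y k * (eta ε l h0 y i * eta ε l h0 y j) +
        B (hh ε l h0 y) * (Hs ε l h0 y i k * eta ε l h0 y j + eta ε l h0 y i * Hs ε l h0 y j k)) :=
  ((((H.HP_Dg P y i).cmul (dl i j)).add (((H.HP_hh y).comp (P.dB _ (H.hh_mem y)).hasDerivAt).mul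
    ((H.HP_eta y i).mul (H.HP_eta y j)))).congr_f fun y => H.Gm_apply W A B y i j).2 k

lemma sb_eta (H : Blk ε l h0) (y : EuclideanSpace ℝ (Fin m)) (i k : Fin m) :
    sb ε i k * eta ε l h0 y k = co ε i * eta ε l h0 y k := by
  unfold sb
  linear_combination ε i * H.e_eta y k + co ε i * H.co_eta y k

lemma sum_eta_Gam (H : Blk ε l h0) (W A B : ℝ → ℝ) (y : EuclideanSpace ℝ (Fin m)) (i j : Fin m) :
    ∑ k, eta ε l h0 y k * Gam ε l h0 W A B y k i j =
      Hs ε l h0 y i j + hh ε l h0 y * rnd (co ε) y * (co ε i * dl i j)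
      + 2 * cw A (hh ε l h0 y) * (eta ε l h0 y i * eta ε l h0 y j)
      + dl i j * ((ε i * (cb1 W A B (hh ε l h0 y) * rnd ε y) +
        co ε i * (cb A B (hh ε l h0 y) * rnd (co ε) y)) * (1 - hh ε l h0 y ^ 2))
      + cc A B (hh ε l h0 y) * (eta ε l h0 y i * eta ε l h0 y j) * (1 - hh ε l h0 y ^ 2) := by
  have h2 := (H.rnd2_pos y).ne'
  have h1 : ∀ k, eta ε l h0 y k * Gam ε l h0 W A B y k i j =
      dl k i * (eta ε l h0 y k * (sb ε i j * lam ε y j + cw A (hh ε l h0 y) * eta ε l h0 y j))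
      + dl k j * (eta ε l h0 y k * (sb ε i j * lam ε y i + cw A (hh ε l h0 y) * eta ε l h0 y i))
      - dl i j * co ε i * (lam ε y k * eta ε l h0 y k)
      + (dl i j * (ε i * (cb1 W A B (hh ε l h0 y) * (rnd ε y / rnd (co ε) y)) +
          co ε i * cb A B (hh ε l h0 y)) +
        cc A B (hh ε l h0 y) * (eta ε l h0 y i * eta ε l h0 y j / rnd (co ε) y)) *
          eta ε l h0 y k ^ 2 := by
    intro k
    unfold Gam
    linear_combination (-(dl i j * lam ε y k)) * H.sb_eta y i k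
      + (cw W (hh ε l h0 y) * (eta ε l h0 y i * dl k j + eta ε l h0 y j * dl k i)) * H.e_eta y k
      + (cw A (hh ε l h0 y) * (eta ε l h0 y i * dl k j + eta ε l h0 y j * dl k i)) * H.co_eta y k
  simp only [h1, Finset.sum_sub_distrib, Finset.sum_add_distrib, sum_dl, ← Finset.mul_sum,
    H.sum_eta_sq, H.sum_lam_eta]
  have e1 := H.sb_eta y i j
  have e2 := H.sb_eta y j i
  have e3 : sb ε j i = sb ε i j := by unfold sb; ring
  rw [e3] at e2
  unfold Hs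
  have e4 : rnd (co ε) y * (rnd (co ε) y)⁻¹ = 1 := mul_inv_cancel₀ h2
  simp only [div_eq_mul_inv]
  linear_combination lam ε y i * e1 + lam ε y j * e2 +
    (dl i j * ε i * cb1 W A B (hh ε l h0 y) * rnd ε y * (1 - hh ε l h0 y ^ 2) +
      cc A B (hh ε l h0 y) * (eta ε l h0 y i * eta ε l h0 y j) * (1 - hh ε l h0 y ^ 2)) * e4

/-- The diagonal part of `G Γ`. -/
lemma Dg_Gam (H : Blk ε l h0) (P : Prof W A B) (y : EuclideanSpace ℝ (Fin m)) (k i j : Fin m) :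
    Dg ε l h0 W A y k * Gam ε l h0 W A B y k i j =
      (1 / 2) * (dl j k * dDg ε l h0 W A y j i + dl i k * dDg ε l h0 W A y i j
        - dl i j * dDg ε l h0 W A y i k)
      + dl i j * (ε i * rnd ε y * (deriv W (hh ε l h0 y) / 2 +
          A (hh ε l h0 y) * cb1 W A B (hh ε l h0 y)) +
        co ε i * rnd (co ε) y * (deriv A (hh ε l h0 y) / 2 +
          A (hh ε l h0 y) * cb A B (hh ε l h0 y))) * eta ε l h0 y k
      + A (hh ε l h0 y) * cc A B (hh ε l h0 y) *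
        (eta ε l h0 y i * eta ε l h0 y j * eta ε l h0 y k) := by
  have hA := (P.pA _ (H.hh_mem y)).ne'
  have hW := (P.pW _ (H.hh_mem y)).ne'
  have h2 := (H.rnd2_pos y).ne'
  have eD := H.Dg_eta W A y k
  -- the three `δ`-terms
  have t1 : ∀ a b : Fin m, dl k a * (Dg ε l h0 W A y k * (sb ε a b * lam ε y b +
      (ε k * cw W (hh ε l h0 y) + co ε k * cw A (hh ε l h0 y)) * eta ε l h0 y b)) =
      (1 / 2) * (dl a k * dDg ε l h0 W A y a b) := by
    intro a b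
    by_cases hk : k = a
    · subst hk
      simp only [dl_self, Dg, dDg, sb, cw, co]
      rcases H.idem k with h | h <;> simp only [h] <;> field_simp <;> ring
    · rw [dl_ne hk, dl_ne (Ne.symm hk)]; simp
  have t2 : Dg ε l h0 W A y k * (sb ε i k * lam ε y k) = (1 / 2) * dDg ε l h0 W A y i k -
      (ε i * rnd ε y * (deriv W (hh ε l h0 y) / 2) +
        co ε i * rnd (co ε) y * (deriv A (hh ε l h0 y) / 2)) * eta ε l h0 y k := by
    simp only [Dg, dDg, sb, co]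
    rcases H.idem k with h | h <;> rcases H.idem i with h' | h' <;> simp only [h, h'] <;> ring
  have t1a := t1 i j
  have t1b := t1 j i
  have e3 : sb ε j i = sb ε i j := by unfold sb; ring
  rw [e3] at t1b
  have e4 : rnd (co ε) y * (rnd (co ε) y)⁻¹ = 1 := mul_inv_cancel₀ h2
  unfold Gam
  simp only [div_eq_mul_inv] at *
  linear_combination t1a + t1b - dl i j * t2 +
    (dl i j * (ε i * (cb1 W A B (hh ε l h0 y) * (rnd ε y * (rnd (co ε) y)⁻¹)) +
      co ε i * cb A B (hh ε l h0 y)) + cc A B (hh ε l h0 y) *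
        (eta ε l h0 y i * eta ε l h0 y j * (rnd (co ε) y)⁻¹)) * eD +
    (dl i j * ε i * cb1 W A B (hh ε l h0 y) * rnd ε y * A (hh ε l h0 y) * eta ε l h0 y k +
      A (hh ε l h0 y) * cc A B (hh ε l h0 y) *
        (eta ε l h0 y i * eta ε l h0 y j * eta ε l h0 y k)) * e4

lemma Hs_symm (ε l : Fin m → ℝ) (h0 : ℝ) (y : EuclideanSpace ℝ (Fin m)) (i j : Fin m) :
    Hs ε l h0 y i j = Hs ε l h0 y j i := by
  unfold Hs
  by_cases h : i = j
  · subst h; ring
  · rw [dl_ne h, dl_ne (Ne.symm h)]; ring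

/-- The Christoffel symbols of `Gm` at every point of the chart. -/
theorem christoffel_Gm (H : Blk ε l h0) (P : Prof W A B) (y : EuclideanSpace ℝ (Fin m))
    (k i j : Fin m) : christoffel (Gm ε l h0 W A B) y k i j = Gam ε l h0 W A B y k i j := by
  refine christoffel_of_inv _ y _ (H.Gm_mul_Ginv P y) (fun k => Gam ε l h0 W A B y k i j) i j
    (fun k => ?_) k
  have hA := (P.pA _ (H.hh_mem y)).ne'
  have hS := (P.pS _ (H.hh_mem y)).ne'
  have h1 : ∀ a, Gm ε l h0 W A B y k a * Gam ε l h0 W A B y a i j =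
      dl k a * (Dg ε l h0 W A y k * Gam ε l h0 W A B y a i j) + B (hh ε l h0 y) * eta ε l h0 y k *
        (eta ε l h0 y a * Gam ε l h0 W A B y a i j) := by
    intro a; rw [H.Gm_apply]; ring
  simp only [h1, Finset.sum_add_distrib, sum_dl', ← Finset.mul_sum, H.sum_eta_Gam, H.Dg_Gam P,
    H.pderiv_Gm P]
  have hS' : SS A B (hh ε l h0 y) = A (hh ε l h0 y) + B (hh ε l h0 y) * (1 - hh ε l h0 y ^ 2) := rfl
  have c1 : cb1 W A B (hh ε l h0 y) * SS A B (hh ε l h0 y) = -deriv W (hh ε l h0 y) / 2 := by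
    simp only [cb1]; field_simp
  have c2 : cb A B (hh ε l h0 y) * SS A B (hh ε l h0 y) =
      -(deriv A (hh ε l h0 y) + 2 * B (hh ε l h0 y) * hh ε l h0 y) / 2 := by
    simp only [cb]; field_simp
  have c3 : cc A B (hh ε l h0 y) * SS A B (hh ε l h0 y) =
      deriv B (hh ε l h0 y) / 2 - 2 * cw A (hh ε l h0 y) * B (hh ε l h0 y) := by
    simp only [cc, cw]; field_simp
  rw [hS'] at c1 c2 c3
  rw [Hs_symm ε l h0 y j i, Hs_symm ε l h0 y k i, Hs_symm ε l h0 y k j]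
  linear_combination (dl i j * ε i * rnd ε y * eta ε l h0 y k) * c1
    + (dl i j * co ε i * rnd (co ε) y * eta ε l h0 y k) * c2
    + (eta ε l h0 y i * eta ε l h0 y j * eta ε l h0 y k) * c3

end Blk

end Crest.Agent.N207.S.Geo

end
end

-- ▼ part N207/S/G1c
section
/-!
Row 207 / S0320 geometry, G1c: the Ricci tensor of `Gm` at the chart centre.
-/

set_option autoImplicit false
open scoped ContDiff Topology
open Set Filter Crest.GeometryTopology.CoordMetric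

noncomputable section

namespace Crest.Agent.N207.S.Geo

variable {m : ℕ}

/-- Christoffel symbols at the centre. -/
def G0 (ε l : Fin m → ℝ) (w a b1 b c : ℝ) (k i j : Fin m) : ℝ :=
  (ε k * w + co ε k * a) * (l i * dl k j + l j * dl k i) + dl i j * ((ε i * b1 + co ε i * b) * l k)
    + c * (l i * l j * l k)

/-- First derivatives `∂_p Γ^k_ij` at the centre. -/
def DG (ε l : Fin m → ℝ) (h0 w a b1 b c w' a' b1' b' c' : ℝ) (p k i j : Fin m) : ℝ :=
  -(1 / 2) * (dl k i * (sb ε i j * dl j p) + dl k j * (sb ε i j * dl i p)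
      - dl i j * (sb ε i k * dl k p))
    + (ε k * w' + co ε k * a') * l p * (l i * dl k j + l j * dl k i)
    - (ε k * w + co ε k * a) * h0 * (co ε i * dl i p * dl k j + co ε j * dl j p * dl k i)
    + dl i j * ((ε i * b1' + co ε i * b') * l p * l k
      - (ε i * b1 + co ε i * b) * h0 * (co ε k * dl k p))
    + c' * (l p * l i * l j * l k)
    - c * h0 * (co ε i * dl i p * l j * l k + co ε j * dl j p * l i * l k
      + co ε k * dl k p * l i * l j)

/-- trace coefficient. -/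
def tr (n h w a b c : ℝ) : ℝ := a + 2 * w + n * a + b + c * (1 - h ^ 2)

/-- Coefficient of the first block in `Ric`. -/
def r1 (n h w a b1 b c b1' : ℝ) : ℝ :=
  1 + b1' * (1 - h ^ 2) - n * b1 * h + b1 * (1 - h ^ 2) * (tr n h w a b c - 2 * w)

/-- Coefficient of the second block in `Ric`. -/
def r2 (n h w a b c b' : ℝ) : ℝ :=
  -1 + n - 2 * a * h + b' * (1 - h ^ 2) - n * b * h + h * tr n h w a b c
    + tr n h w a b c * b * (1 - h ^ 2) - 2 * a * b * (1 - h ^ 2)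

/-- Coefficient of `dh²` in `Ric`. -/
def r3 (n h w a b c w' a' b' : ℝ) : ℝ :=
  a' - c * h * n - 2 * w' - n * a' - b' + tr n h w a b c * (2 * a + c * (1 - h ^ 2))
    - (a * a + 2 * w * w + n * a * a + a * b + a * c * (1 - h ^ 2) + b * (a + b + c * (1 - h ^ 2))
      + a * (2 * a + c * (1 - h ^ 2)) + c * (1 - h ^ 2) * (2 * a + b + c * (1 - h ^ 2)))

lemma Gam_zero (ε l : Fin m → ℝ) (h0 : ℝ) (W A B : ℝ → ℝ) (k i j : Fin m) :
    Gam ε l h0 W A B 0 k i j =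
      G0 ε l (cw W h0) (cw A h0) (cb1 W A B h0) (cb A B h0) (cc A B h0) k i j := by
  simp only [Gam, G0, lam_zero, eta_zero, hh_zero, rnd_zero]; ring

namespace Blk

variable {ε l : Fin m → ℝ} {h0 : ℝ} {W A B : ℝ → ℝ}

lemma HP_Gam (H : Blk ε l h0) {w' a' b1' b' c' : ℝ} (hw : HasDerivAt (cw W) w' h0)
    (ha : HasDerivAt (cw A) a' h0) (hb1 : HasDerivAt (cb1 W A B) b1' h0)
    (hb : HasDerivAt (cb A B) b' h0) (hc : HasDerivAt (cc A B) c' h0) (k i j : Fin m) :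
    HP (fun y => Gam ε l h0 W A B y k i j) 0 (fun p => DG ε l h0 (cw W h0) (cw A h0)
      (cb1 W A B h0) (cb A B h0) (cc A B h0) w' a' b1' b' c' p k i j) := by
  have F : ∀ {f : ℝ → ℝ} {f' : ℝ}, HasDerivAt f f' h0 →
      HP (fun y => f (hh ε l h0 y)) 0 (fun p => f' * l p) := fun {f f'} hf =>
    ((H.HP_hh 0).comp (F' := f') (by rw [hh_zero]; exact hf)).congr_d fun p => by rw [eta_zero]
  have E : ∀ i, HP (fun y => eta ε l h0 y i) 0 (fun p => -h0 * (co ε i * dl i p)) := fun i =>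
    (H.HP_eta 0 i).congr_d fun p => by simp only [lam_zero, hh_zero, nsq_zero]; ring
  have R1 : HP (rnd ε) 0 (fun _ => 0) := (H.HP_rnd1 0).congr_d fun p => by simp [lam_zero]
  have R2 : HP (rnd (co ε)) 0 (fun _ => 0) := (H.HP_rnd2 0).congr_d fun p => by simp [lam_zero]
  have h2 := (H.rnd2_pos 0).ne'
  have h1 := (((((((H.HP_lam_zero j).cmul (sb ε i j)).cmul (dl k i)).add
    (((H.HP_lam_zero i).cmul (sb ε i j)).cmul (dl k j))).sub
    (((H.HP_lam_zero k).cmul (sb ε i k)).cmul (dl i j))).add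
    ((((F hw).cmul (ε k)).add ((F ha).cmul (co ε k))).mul
      (((E i).mul (HP.const (dl k j) 0)).add ((E j).mul (HP.const (dl k i) 0))))).add
    ((((((F hb1).mul (R1.div R2 h2)).cmul (ε i)).add ((F hb).cmul (co ε i))).mul (E k)).cmul
      (dl i j))).add ((F hc).mul ((((E i).mul (E j)).mul (E k)).div R2 h2))
  refine h1.congr_d fun p => ?_
  simp only [DG, eta_zero, hh_zero, rnd_zero]
  ring

section sums

variable {n : ℝ} (H : Blk ε l h0) (s1 : ∑ k, ε k = 2) (s2 : ∑ k, co ε k = n)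
  (w a b1 b c w' a' b1' b' c' : ℝ)
include H

lemma sum_lin (i j : Fin m) (X Y : Fin m → ℝ) (c1 c2 c3 : ℝ) (s1 : ∑ k, ε k = 2)
    (s2 : ∑ k, co ε k = n) :
    ∑ k, (dl k i * X k + dl k j * Y k + c1 * l k ^ 2 + c2 * ε k + c3 * co ε k) =
      X i + Y j + c1 * (1 - h0 ^ 2) + c2 * 2 + c3 * n := by
  simp only [Finset.sum_add_distrib, sum_dl, ← Finset.mul_sum, H.nrm, s1, s2]

include s1 s2

lemma sumA (i j : Fin m) : ∑ k, DG ε l h0 w a b1 b c w' a' b1' b' c' k k i j =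
    dl i j * (-1 + (2 * ε i + n * co ε i) / 2 - 2 * a * h0 * co ε i
      + (ε i * b1' + co ε i * b') * (1 - h0 ^ 2) - (ε i * b1 + co ε i * b) * h0 * n)
    + l i * l j * (2 * a' + c' * (1 - h0 ^ 2) - c * h0 * (n + 2)) := by
  have h1 : ∀ k, DG ε l h0 w a b1 b c w' a' b1' b' c' k k i j =
      dl k i * (-(1 / 2) * (sb ε i j * dl j k) + (ε k * w' + co ε k * a') * l k * l j
        - (ε k * w + co ε k * a) * h0 * (co ε i * dl k j + co ε j * dl j k)
        - c * h0 * (co ε i * l j * l k))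
      + dl k j * (-(1 / 2) * (sb ε i j * dl i k) + (ε k * w' + co ε k * a') * l k * l i
        - c * h0 * (co ε j * l i * l k))
      + (dl i j * (ε i * b1' + co ε i * b') + c' * (l i * l j)) * l k ^ 2
      + (dl i j * ε i / 2) * ε k
      + (dl i j * co ε i / 2 - dl i j * (ε i * b1 + co ε i * b) * h0 - c * h0 * (l i * l j))
        * co ε k := by
    intro k
    simp only [DG, dl_self, dl_comm i k, dl_comm j k, sb]; ring
  simp only [h1]
  rw [H.sum_lin i j _ _ _ _ _ s1 s2]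
  by_cases hij : i = j
  · subst hij
    simp only [dl_self, sb, co]
    rcases H.idem i with h | h
    · simp only [h]; ring
    · simp only [h, H.blk i h]; ring
  · simp only [dl_ne hij, dl_ne (Ne.symm hij), co]
    rcases H.idem i with h | h <;> rcases H.idem j with h' | h' <;>
      simp only [h, h', H.blk i, H.blk j] <;> ring

lemma sumB (i j : Fin m) : ∑ k, DG ε l h0 w a b1 b c w' a' b1' b' c' j k k i =
    dl i j * (-(2 * ε i + n * co ε i) / 2 - h0 * co ε i * tr n h0 w a b c)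
    + l i * l j * (a' + 2 * w' + n * a' + b' + c' * (1 - h0 ^ 2) - 2 * c * h0) := by
  have h1 : ∀ k, DG ε l h0 w a b1 b c w' a' b1' b' c' j k k i =
      dl k i * ((ε k * w' + co ε k * a') * l j * l k + (ε k * b1' + co ε k * b') * l j * l k
        + (1 / 2) * ((sb ε k k - sb ε k i) * dl k j)
        - (ε k * w + co ε k * a + ε k * b1 + co ε k * b) * h0 * (co ε k * dl k j))
      + dl k j * (-(2 * c * h0 * (co ε k * l i * l k)))
      + (c' * (l j * l i) - c * h0 * (co ε i * dl i j)) * l k ^ 2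
      + (-(dl i j * ε i / 2) + w' * l j * l i - w * h0 * (co ε i * dl i j)) * ε k
      + (-(dl i j * co ε i / 2) + a' * l j * l i - a * h0 * (co ε i * dl i j)) * co ε k := by
    intro k
    simp only [DG, dl_self, sb]; ring
  simp only [h1]
  rw [H.sum_lin i j _ _ _ _ _ s1 s2]
  by_cases hij : i = j
  · subst hij
    simp only [dl_self, sb, co, tr]
    rcases H.idem i with h | h
    · simp only [h]; ring
    · simp only [h, H.blk i h]; ring
  · simp only [dl_ne hij, co]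
    rcases H.idem i with h | h <;> rcases H.idem j with h' | h' <;>
      simp only [h, h', H.blk i, H.blk j] <;> ring

lemma sumT (j : Fin m) : ∑ k, G0 ε l w a b1 b c k k j = tr n h0 w a b c * l j := by
  have h1 : ∀ k, G0 ε l w a b1 b c k k j =
      dl k j * ((ε k * w + co ε k * a + ε k * b1 + co ε k * b) * l k) + dl k j * 0
      + (c * l j) * l k ^ 2 + (w * l j) * ε k + (a * l j) * co ε k := by
    intro k
    simp only [G0, dl_self]; ring
  simp only [h1]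
  rw [H.sum_lin j j _ _ _ _ _ s1 s2]
  simp only [co, tr]
  rcases H.idem j with h | h
  · simp only [h]; ring
  · simp only [h, H.blk j h]; ring

lemma sumM (i j : Fin m) : ∑ k, l k * G0 ε l w a b1 b c k i j =
    dl i j * ((ε i * b1 + co ε i * b) * (1 - h0 ^ 2)) + (2 * a + c * (1 - h0 ^ 2)) * (l i * l j) := by
  have h1 : ∀ k, l k * G0 ε l w a b1 b c k i j =
      dl k i * ((ε k * w + co ε k * a) * l k * l j) + dl k j * ((ε k * w + co ε k * a) * l k * l i)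
      + (dl i j * (ε i * b1 + co ε i * b) + c * (l i * l j)) * l k ^ 2 + 0 * ε k + 0 * co ε k := by
    intro k
    simp only [G0]; ring
  simp only [h1]
  rw [H.sum_lin i j _ _ _ _ _ s1 s2]
  simp only [co]
  rcases H.idem i with h | h <;> rcases H.idem j with h' | h' <;>
    simp only [h, h', H.blk i, H.blk j] <;> ring

lemma sumC (i j : Fin m) : ∑ k, ∑ p, G0 ε l w a b1 b c k k p * G0 ε l w a b1 b c p i j =
    tr n h0 w a b c * (dl i j * ((ε i * b1 + co ε i * b) * (1 - h0 ^ 2)) +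
      (2 * a + c * (1 - h0 ^ 2)) * (l i * l j)) := by
  rw [Finset.sum_comm]
  simp only [← Finset.sum_mul, H.sumT s1 s2, mul_assoc, ← Finset.mul_sum, H.sumM s1 s2]

lemma sumD (i j : Fin m) : ∑ k, ∑ p, G0 ε l w a b1 b c k j p * G0 ε l w a b1 b c p k i =
    dl i j * (2 * (ε i * w + co ε i * a) * (ε i * b1 + co ε i * b) * (1 - h0 ^ 2)) + l i * l j *
      (a * a + 2 * w * w + n * a * a + a * b + a * c * (1 - h0 ^ 2)
        + b * (a + b + c * (1 - h0 ^ 2)) + a * (2 * a + c * (1 - h0 ^ 2))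
        + c * (1 - h0 ^ 2) * (2 * a + b + c * (1 - h0 ^ 2))) := by
  have h1 : ∀ k, ∑ p, G0 ε l w a b1 b c k j p * G0 ε l w a b1 b c p k i =
      (ε k * w + co ε k * a) * l j * G0 ε l w a b1 b c k k i
      + (ε j * b1 + co ε j * b) * l k * G0 ε l w a b1 b c j k i
      + ((ε k * w + co ε k * a) * dl k j + c * (l j * l k)) *
        (dl k i * ((ε k * b1 + co ε k * b) * (1 - h0 ^ 2)) +
          (2 * a + c * (1 - h0 ^ 2)) * (l k * l i)) := by
    intro k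
    have h2 : ∀ p, G0 ε l w a b1 b c k j p * G0 ε l w a b1 b c p k i =
        dl k p * ((ε k * w + co ε k * a) * l j * G0 ε l w a b1 b c p k i)
        + dl j p * ((ε j * b1 + co ε j * b) * l k * G0 ε l w a b1 b c p k i)
        + ((ε k * w + co ε k * a) * dl k j + c * (l j * l k)) *
          (l p * G0 ε l w a b1 b c p k i) := by
      intro p
      rw [show G0 ε l w a b1 b c k j p = (ε k * w + co ε k * a) * (l j * dl k p + l p * dl k j)
        + dl j p * ((ε j * b1 + co ε j * b) * l k) + c * (l j * l p * l k) from rfl]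
      ring
    simp only [h2, Finset.sum_add_distrib, sum_dl', ← Finset.mul_sum, H.sumM s1 s2]
  have h3 : ∀ k, ∑ p, G0 ε l w a b1 b c k j p * G0 ε l w a b1 b c p k i =
      dl k i * ((ε k * w + co ε k * a) * l j * ((ε k * w + co ε k * a + ε k * b1 + co ε k * b) * l k)
        + (ε j * b1 + co ε j * b) * l k * ((ε k * b1 + co ε k * b) * l j)
        + ((ε k * w + co ε k * a) * dl k j + c * (l j * l k)) *
          ((ε k * b1 + co ε k * b) * (1 - h0 ^ 2)))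
      + dl k j * ((ε j * b1 + co ε j * b) * l k * ((ε j * w + co ε j * a) * l i)
        + (ε k * w + co ε k * a) * ((2 * a + c * (1 - h0 ^ 2)) * (l k * l i)))
      + (a * l j * c * l i + (ε j * b1 + co ε j * b) * ((ε j * w + co ε j * a) * dl j i
        + c * (l i * l j)) + c * l j * ((2 * a + c * (1 - h0 ^ 2)) * l i)) * l k ^ 2
      + (w * w * l j * l i) * ε k + (a * a * l j * l i) * co ε k := by
    intro k
    rw [h1]
    simp only [G0, dl_self, dl_comm j k, co]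
    rcases H.idem k with h | h
    · simp only [h]; ring
    · simp only [h, H.blk k h]; ring
  simp only [h3]
  rw [H.sum_lin i j _ _ _ _ _ s1 s2]
  by_cases hij : i = j
  · subst hij
    simp only [dl_self, co]
    rcases H.idem i with h | h
    · simp only [h]; ring
    · simp only [h, H.blk i h]; ring
  · simp only [dl_ne hij, dl_ne (Ne.symm hij), co]
    rcases H.idem i with h | h <;> rcases H.idem j with h' | h' <;>
      simp only [h, h', H.blk i, H.blk j] <;> ring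

/-- The Ricci tensor of `Gm` at the centre. -/
theorem ricci_Gm (P : Prof W A B) {w' a' b1' b' c' : ℝ} (hw : HasDerivAt (cw W) w' h0)
    (ha : HasDerivAt (cw A) a' h0) (hb1 : HasDerivAt (cb1 W A B) b1' h0)
    (hb : HasDerivAt (cb A B) b' h0) (hc : HasDerivAt (cc A B) c' h0) (i j : Fin m) :
    ricci (Gm ε l h0 W A B) 0 i j =
      dl i j * (ε i * r1 n h0 (cw W h0) (cw A h0) (cb1 W A B h0) (cb A B h0) (cc A B h0) b1'
        + co ε i * r2 n h0 (cw W h0) (cw A h0) (cb A B h0) (cc A B h0) b')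
      + r3 n h0 (cw W h0) (cw A h0) (cb A B h0) (cc A B h0) w' a' b' * (l i * l j) := by
  unfold ricci
  simp only [H.christoffel_Gm P, Gam_zero]
  rw [(HP.sum Finset.univ fun k _ => H.HP_Gam hw ha hb1 hb hc k k i).2 j]
  simp only [(H.HP_Gam hw ha hb1 hb hc _ _ _).2]
  rw [H.sumA s1 s2, H.sumB s1 s2, H.sumC s1 s2, H.sumD s1 s2]
  simp only [r1, r2, r3, co]
  rcases H.idem i with h | h <;> simp only [h] <;> ring

end sums

end Blk

end Crest.Agent.N207.S.Geo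

end
end

-- ▼ part N207/S/G1d
section
/-!
Row 207 / S0320 geometry, G1d: scalar curvature of `Gm` at the centre, `|Rm|²` at a pole, and the
algebraic identification of `r1, r2, r3` with `ra, rb, rc`.
-/

set_option autoImplicit false
open scoped ContDiff Topology
open Set Filter Crest.GeometryTopology.CoordMetric Crest.GeometryTopology.ChartCurvature
  Crest.GeometryTopology.MetricFamily

noncomputable section

namespace Crest.Agent.N207.S.Geo

variable {m : ℕ}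

lemma rm_lower (G : MetricField m) (y : EuclideanSpace ℝ (Fin m)) (D : Fin m → ℝ)
    (hD : ∀ i, 0 < D i) (hG : ∀ a b, G y a b = dl a b * D a)
    (hi : ∀ a b, (G y)⁻¹ a b = dl a b * (D a)⁻¹) (l k i j : Fin m) :
    (D l)⁻¹ * (D k)⁻¹ * (D i)⁻¹ * (D j)⁻¹ * (D l * riemann G y l k i j) ^ 2 ≤ rmNormSq G y := by
  have h0 : ∀ l k i j, riemannLower G y l k i j = D l * riemann G y l k i j := by
    intro l k i j
    simp only [riemannLower, hG, mul_assoc, sum_dl']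
  have h1 : ∀ l k i j : Fin m, (∑ a, ∑ b, ∑ c, ∑ d,
      (G y)⁻¹ l a * (G y)⁻¹ k b * (G y)⁻¹ i c * (G y)⁻¹ j d *
        riemannLower G y l k i j * riemannLower G y a b c d) =
      (D l)⁻¹ * (D k)⁻¹ * (D i)⁻¹ * (D j)⁻¹ * (D l * riemann G y l k i j) ^ 2 := by
    intro l k i j
    have h2 : ∀ a b c d : Fin m, (G y)⁻¹ l a * (G y)⁻¹ k b * (G y)⁻¹ i c * (G y)⁻¹ j d *
        riemannLower G y l k i j * riemannLower G y a b c d =
        dl l a * (dl k b * (dl i c * (dl j d * ((D l)⁻¹ * (D k)⁻¹ * (D i)⁻¹ * (D j)⁻¹ *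
          riemannLower G y l k i j * riemannLower G y a b c d)))) := by
      intro a b c d; simp only [hi]; ring
    simp only [h2, ← Finset.mul_sum, sum_dl']
    rw [h0]; ring
  unfold rmNormSq
  simp only [h1]
  have hp : ∀ l k i j : Fin m,
      0 ≤ (D l)⁻¹ * (D k)⁻¹ * (D i)⁻¹ * (D j)⁻¹ * (D l * riemann G y l k i j) ^ 2 := by
    intro l k i j
    have := hD l; have := hD k; have := hD i; have := hD j
    positivity
  refine le_trans ?_ (Finset.single_le_sum (fun l _ => Finset.sum_nonneg fun k _ =>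
    Finset.sum_nonneg fun i _ => Finset.sum_nonneg fun j _ => hp l k i j) (Finset.mem_univ l))
  refine le_trans ?_ (Finset.single_le_sum (fun k _ =>
    Finset.sum_nonneg fun i _ => Finset.sum_nonneg fun j _ => hp l k i j) (Finset.mem_univ k))
  refine le_trans ?_ (Finset.single_le_sum (fun i _ =>
    Finset.sum_nonneg fun j _ => hp l k i j) (Finset.mem_univ i))
  exact Finset.single_le_sum (fun j _ => hp l k i j) (Finset.mem_univ j)

namespace Blk

variable {ε l : Fin m → ℝ} {h0 : ℝ} {W A B : ℝ → ℝ}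

lemma Gm_zero (H : Blk ε l h0) (W A B : ℝ → ℝ) (i j : Fin m) :
    Gm ε l h0 W A B 0 i j = dl i j * (ε i * W h0 + co ε i * A h0) + B h0 * (l i * l j) := by
  rw [H.Gm_apply]; simp only [Dg, hh_zero, rnd_zero, eta_zero, mul_one]

lemma Gm_inv_zero (H : Blk ε l h0) (P : Prof W A B) (i j : Fin m) :
    (Gm ε l h0 W A B 0)⁻¹ i j = dl i j * (ε i * W h0 + co ε i * A h0)⁻¹ -
      B h0 / (A h0 * SS A B h0) * (l i * l j) := by
  rw [Matrix.inv_eq_right_inv (H.Gm_mul_Ginv P 0)]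
  simp only [Ginv, Matrix.of_apply, Dg, hh_zero, rnd_zero, eta_zero, mul_one, one_pow]

lemma scalar_Gm (H : Blk ε l h0) {n : ℝ} (s1 : ∑ k, ε k = 2) (s2 : ∑ k, co ε k = n)
    (P : Prof W A B) {R1 R2 R3 : ℝ} (hR : ∀ i j, ricci (Gm ε l h0 W A B) 0 i j =
      dl i j * (ε i * R1 + co ε i * R2) + R3 * (l i * l j)) :
    scalarCurv (Gm ε l h0 W A B) 0 = 2 * (R1 / W h0) + (n - 1) * (R2 / A h0) +
      (R2 + R3 * (1 - h0 ^ 2)) / SS A B h0 := by
  have hW := (P.pW _ H.h0_mem).ne'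
  have hA := (P.pA _ H.h0_mem).ne'
  have hS := (P.pS _ H.h0_mem).ne'
  set κ := B h0 / (A h0 * SS A B h0) with hκ
  have h1 : ∀ i j, (Gm ε l h0 W A B 0)⁻¹ i j * ricci (Gm ε l h0 W A B) 0 i j =
      dl i j * ((ε i * W h0 + co ε i * A h0)⁻¹ * (dl i j * (ε i * R1 + co ε i * R2) +
        R3 * (l i * l j)) - κ * (l i * l j) * (ε i * R1 + co ε i * R2))
      - κ * R3 * l i ^ 2 * l j ^ 2 := by
    intro i j; rw [H.Gm_inv_zero P, hR, ← hκ]; ring
  have h2 : ∀ i, ∑ j, (Gm ε l h0 W A B 0)⁻¹ i j * ricci (Gm ε l h0 W A B) 0 i j =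
      (R3 / A h0 - κ * R2 - κ * R3 * (1 - h0 ^ 2)) * l i ^ 2 + (R1 / W h0) * ε i
        + (R2 / A h0) * co ε i := by
    intro i
    simp only [h1, Finset.sum_sub_distrib, sum_dl', ← Finset.mul_sum, H.nrm, dl_self, co]
    rcases H.idem i with h | h
    · simp only [h]; ring
    · simp only [h, H.blk i h]; ring
  unfold scalarCurv
  simp only [h2, Finset.sum_add_distrib, ← Finset.mul_sum, H.nrm, s1, s2]
  rw [hκ]
  have hS' : SS A B h0 = A h0 + B h0 * (1 - h0 ^ 2) := rfl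
  rw [hS'] at hS ⊢
  field_simp
  ring

/-- At a pole, `|Rm|² ≥ 1/W²`. -/
lemma rm_pole (H : Blk ε l h0) (hp : h0 ^ 2 = 1) (P : Prof W A B) {w' a' b1' b' c' : ℝ}
    (hw : HasDerivAt (cw W) w' h0) (ha : HasDerivAt (cw A) a' h0)
    (hb1 : HasDerivAt (cb1 W A B) b1' h0) (hb : HasDerivAt (cb A B) b' h0)
    (hc : HasDerivAt (cc A B) c' h0) {i j : Fin m} (hij : i ≠ j) (hi : ε i = 1) (hj : ε j = 1) :
    (W h0)⁻¹ ^ 2 ≤ rmNormSq (Gm ε l h0 W A B) 0 := by
  have hl : ∀ k, l k = 0 := by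
    intro k
    have h1 : ∑ i, l i ^ 2 = 0 := by rw [H.nrm, hp]; ring
    have := (Finset.sum_eq_zero_iff_of_nonneg fun i _ => sq_nonneg (l i)).1 h1 k (Finset.mem_univ k)
    exact pow_eq_zero_iff (two_ne_zero) |>.1 this
  have hW := P.pW _ H.h0_mem
  have hA := P.pA _ H.h0_mem
  have h1 := rm_lower (Gm ε l h0 W A B) 0 (fun k => ε k * W h0 + co ε k * A h0)
    (fun k => by rcases H.idem k with h | h <;> simp [co, h, hW, hA])
    (fun a b => by rw [H.Gm_zero]; simp [hl]) (fun a b => by rw [H.Gm_inv_zero P]; simp [hl])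
    i j i j
  have h2 : riemann (Gm ε l h0 W A B) 0 i j i j = 1 := by
    unfold riemann
    simp only [H.christoffel_Gm P, Gam_zero, (H.HP_Gam hw ha hb1 hb hc _ _ _).2]
    simp only [DG, G0, hl, dl_self, dl_ne hij, dl_ne hij.symm, sb, co, hi, hj]
    simp
    ring
  rw [h2] at h1
  simp only [co, hi, hj] at h1
  refine le_trans (le_of_eq ?_) h1
  field_simp
  ring

end Blk

lemma alg1 (q : ℕ) (h W W1 W2 A A1 B B1 S : ℝ) (hW : W ≠ 0) (hA : A ≠ 0) (hS : S ≠ 0)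
    (hL : 1 - h ^ 2 ≠ 0) (hB : S = A + B * (1 - h ^ 2)) :
    ra q W W1 W2 (A * (1 - h ^ 2)) (A1 * (1 - h ^ 2) - 2 * h * A) ((1 - h ^ 2) / S)
      ((-(2 * h) * S - (1 - h ^ 2) * (A1 + B1 * (1 - h ^ 2) - 2 * h * B)) / S ^ 2) * W =
    r1 (q + 1) h (W1 / (2 * W)) (A1 / (2 * A)) (-W1 / (2 * S)) (-(A1 + 2 * B * h) / (2 * S))
      ((B1 / 2 - A1 * B / A) / S)
      (-(W2 * S - W1 * (A1 + B1 * (1 - h ^ 2) - 2 * h * B)) / (2 * S ^ 2)) := by
  have hB' : B = (S - A) / (1 - h ^ 2) := by field_simp; linarith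
  subst hB'
  simp only [ra, kS, kT, kX, r1, tr]
  field_simp
  ring

lemma alg2 (q : ℕ) (h W W1 A A1 A2 B B1 S : ℝ) (hW : W ≠ 0) (hA : A ≠ 0) (hS : S ≠ 0)
    (hL : 1 - h ^ 2 ≠ 0) (hB : S = A + B * (1 - h ^ 2)) :
    rb q W W1 (A * (1 - h ^ 2)) (A1 * (1 - h ^ 2) - 2 * h * A)
      (A2 * (1 - h ^ 2) - 4 * h * A1 - 2 * A) ((1 - h ^ 2) / S)
      ((-(2 * h) * S - (1 - h ^ 2) * (A1 + B1 * (1 - h ^ 2) - 2 * h * B)) / S ^ 2) * A =
    r2 (q + 1) h (W1 / (2 * W)) (A1 / (2 * A)) (-(A1 + 2 * B * h) / (2 * S))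
      ((B1 / 2 - A1 * B / A) / S)
      (-((A2 + 2 * B1 * h + 2 * B) * S - (A1 + 2 * B * h) * (A1 + B1 * (1 - h ^ 2) - 2 * h * B))
        / (2 * S ^ 2)) := by
  have hB' : B = (S - A) / (1 - h ^ 2) := by field_simp; linarith
  subst hB'
  simp only [rb, kS, kT, kX, r2, tr]
  field_simp
  ring

lemma alg3 (q : ℕ) (h W W1 W2 A A1 A2 B B1 S : ℝ) (hW : W ≠ 0) (hA : A ≠ 0) (hS : S ≠ 0)
    (hL : 1 - h ^ 2 ≠ 0) (hB : S = A + B * (1 - h ^ 2)) :
    rc q W W1 W2 (A * (1 - h ^ 2)) (A1 * (1 - h ^ 2) - 2 * h * A)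
      (A2 * (1 - h ^ 2) - 4 * h * A1 - 2 * A) ((1 - h ^ 2) / S)
      ((-(2 * h) * S - (1 - h ^ 2) * (A1 + B1 * (1 - h ^ 2) - 2 * h * B)) / S ^ 2) * S =
    r2 (q + 1) h (W1 / (2 * W)) (A1 / (2 * A)) (-(A1 + 2 * B * h) / (2 * S))
      ((B1 / 2 - A1 * B / A) / S)
      (-((A2 + 2 * B1 * h + 2 * B) * S - (A1 + 2 * B * h) * (A1 + B1 * (1 - h ^ 2) - 2 * h * B))
        / (2 * S ^ 2)) +
    r3 (q + 1) h (W1 / (2 * W)) (A1 / (2 * A)) (-(A1 + 2 * B * h) / (2 * S))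
      ((B1 / 2 - A1 * B / A) / S) ((W2 * W - W1 ^ 2) / (2 * W ^ 2)) ((A2 * A - A1 ^ 2) / (2 * A ^ 2))
      (-((A2 + 2 * B1 * h + 2 * B) * S - (A1 + 2 * B * h) * (A1 + B1 * (1 - h ^ 2) - 2 * h * B))
        / (2 * S ^ 2)) * (1 - h ^ 2) := by
  have hB' : B = (S - A) / (1 - h ^ 2) := by field_simp; linarith
  subst hB'
  simp only [rc, kS, r2, r3, tr]
  field_simp
  ring

end Crest.Agent.N207.S.Geo

end
end

-- ▼ part N207/S/G1e
section
/-!
Row 207 / S0320 geometry, G1e: `RedFlow → ChartFlow`.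
-/

set_option autoImplicit false
open scoped ContDiff Topology
open Set Filter Crest.GeometryTopology.CoordMetric Crest.GeometryTopology.ChartCurvature
  Crest.GeometryTopology.MetricFamily

noncomputable section

namespace Crest.Agent.N207.S.Geo

/-- Smooth near every point of `[-1,1]`. -/
def Sm (f : ℝ → ℝ) : Prop := ∀ h ∈ Icc (-1 : ℝ) 1, ContDiffAt ℝ ∞ f h

lemma Sm.deriv {f : ℝ → ℝ} (hf : Sm f) : Sm (deriv f) := fun h hh =>
  ((hf h hh).fderiv_right (m := ∞) (le_of_eq rfl)).clm_apply contDiffAt_const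

lemma Sm.diff {f : ℝ → ℝ} (hf : Sm f) {h : ℝ} (hh : h ∈ Icc (-1 : ℝ) 1) : DifferentiableAt ℝ f h :=
  (hf h hh).differentiableAt (by simp)

lemma Sm.cont {f : ℝ → ℝ} (hf : Sm f) : ContinuousOn f (Icc (-1 : ℝ) 1) := fun h hh =>
  (hf h hh).continuousAt.continuousWithinAt

/-- Smooth positive profile. -/
structure SProf (W A B : ℝ → ℝ) : Prop where
  sW : Sm W
  sA : Sm A
  sB : Sm B
  pW : ∀ h ∈ Icc (-1 : ℝ) 1, 0 < W h
  pA : ∀ h ∈ Icc (-1 : ℝ) 1, 0 < A h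
  pS : ∀ h ∈ Icc (-1 : ℝ) 1, 0 < SS A B h

/-- `r1` of a profile. -/
def R1 (q : ℕ) (W A B : ℝ → ℝ) (h : ℝ) : ℝ :=
  r1 (q + 1) h (cw W h) (cw A h) (cb1 W A B h) (cb A B h) (cc A B h) (deriv (cb1 W A B) h)
/-- `r2` of a profile. -/
def R2 (q : ℕ) (W A B : ℝ → ℝ) (h : ℝ) : ℝ :=
  r2 (q + 1) h (cw W h) (cw A h) (cb A B h) (cc A B h) (deriv (cb A B) h)
/-- `r3` of a profile. -/
def R3 (q : ℕ) (W A B : ℝ → ℝ) (h : ℝ) : ℝ :=
  r3 (q + 1) h (cw W h) (cw A h) (cb A B h) (cc A B h) (deriv (cw W) h) (deriv (cw A) h)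
    (deriv (cb A B) h)

namespace SProf

variable {W A B : ℝ → ℝ}

lemma prof (P : SProf W A B) : Prof W A B :=
  ⟨fun _ hh => P.sW.diff hh, fun _ hh => P.sA.diff hh, fun _ hh => P.sB.diff hh, P.pW, P.pA, P.pS⟩

lemma sS (P : SProf W A B) : Sm (SS A B) := fun h hh =>
  (P.sA h hh).add ((P.sB h hh).mul (by fun_prop))

lemma scwW (P : SProf W A B) : Sm (cw W) := fun h hh =>
  (P.sW.deriv h hh).div (contDiffAt_const.mul (P.sW h hh)) (by have := P.pW h hh; positivity)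

lemma scwA (P : SProf W A B) : Sm (cw A) := fun h hh =>
  (P.sA.deriv h hh).div (contDiffAt_const.mul (P.sA h hh)) (by have := P.pA h hh; positivity)

lemma scb1 (P : SProf W A B) : Sm (cb1 W A B) := fun h hh =>
  (P.sW.deriv h hh).neg.div (contDiffAt_const.mul (P.sS h hh)) (by have := P.pS h hh; positivity)

lemma scb (P : SProf W A B) : Sm (cb A B) := fun h hh =>
  ((P.sA.deriv h hh).add ((contDiffAt_const.mul (P.sB h hh)).mul contDiffAt_id)).neg.div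
    (contDiffAt_const.mul (P.sS h hh)) (by have := P.pS h hh; positivity)

lemma scc (P : SProf W A B) : Sm (cc A B) := fun h hh =>
  (((P.sB.deriv h hh).div_const 2).sub (((P.sA.deriv h hh).mul (P.sB h hh)).div (P.sA h hh)
    (P.pA h hh).ne')).div (P.sS h hh) (P.pS h hh).ne'

lemma cR1 (P : SProf W A B) (q : ℕ) : ContinuousOn (R1 q W A B) (Icc (-1 : ℝ) 1) := by
  have h1 := P.scwW.cont; have h2 := P.scwA.cont; have h3 := P.scb1.cont; have h4 := P.scb.cont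
  have h5 := P.scc.cont; have h6 := P.scb1.deriv.cont
  unfold R1 r1 tr
  fun_prop

lemma cR2 (P : SProf W A B) (q : ℕ) : ContinuousOn (R2 q W A B) (Icc (-1 : ℝ) 1) := by
  have h1 := P.scwW.cont; have h2 := P.scwA.cont; have h4 := P.scb.cont
  have h5 := P.scc.cont; have h6 := P.scb.deriv.cont
  unfold R2 r2 tr
  fun_prop

lemma cR3 (P : SProf W A B) (q : ℕ) : ContinuousOn (R3 q W A B) (Icc (-1 : ℝ) 1) := by
  have h1 := P.scwW.cont; have h2 := P.scwA.cont; have h4 := P.scb.cont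
  have h5 := P.scc.cont; have h6 := P.scb.deriv.cont; have h7 := P.scwW.deriv.cont
  have h8 := P.scwA.deriv.cont
  unfold R3 r3 tr
  fun_prop

lemma interior (P : SProf W A B) (q : ℕ) {h : ℝ} (hh : h ∈ Ioo (-1 : ℝ) 1) :
    fa q W (fun x => A x * (1 - x ^ 2)) (fun x => (1 - x ^ 2) / SS A B x) h * W h = R1 q W A B h ∧
    fb q W (fun x => A x * (1 - x ^ 2)) (fun x => (1 - x ^ 2) / SS A B x) h * A h = R2 q W A B h ∧
    fc q W (fun x => A x * (1 - x ^ 2)) (fun x => (1 - x ^ 2) / SS A B x) h * SS A B h =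
      R2 q W A B h + R3 q W A B h * (1 - h ^ 2) := by
  have hc : h ∈ Icc (-1 : ℝ) 1 := Ioo_subset_Icc_self hh
  have hW := (P.pW h hc).ne'
  have hA := (P.pA h hc).ne'
  have hS := (P.pS h hc).ne'
  have hL : 1 - h ^ 2 ≠ 0 := by nlinarith [hh.1, hh.2]
  have dW := (P.sW.diff hc).hasDerivAt
  have dW2 := (P.sW.deriv.diff hc).hasDerivAt
  have dA := (P.sA.diff hc).hasDerivAt
  have dA2 := (P.sA.deriv.diff hc).hasDerivAt
  have dB := (P.sB.diff hc).hasDerivAt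
  have dL : ∀ x : ℝ, HasDerivAt (fun x : ℝ => 1 - x ^ 2) (-(2 * x)) x := fun x => by
    simpa using (hasDerivAt_pow 2 x).const_sub 1
  have dS : HasDerivAt (SS A B) (deriv A h + deriv B h * (1 - h ^ 2) - 2 * h * B h) h :=
    (dA.add (dB.mul (dL h))).congr_deriv (by ring)
  have dP : ∀ x ∈ Icc (-1 : ℝ) 1, deriv (fun x => A x * (1 - x ^ 2)) x =
      deriv A x * (1 - x ^ 2) - 2 * x * A x := fun x hx =>
    (((P.sA.diff hx).hasDerivAt.mul (dL x)).congr_deriv (by ring)).deriv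
  have dP2 : deriv (deriv (fun x => A x * (1 - x ^ 2))) h =
      deriv (deriv A) h * (1 - h ^ 2) - 4 * h * deriv A h - 2 * A h := by
    have e : deriv (fun x => A x * (1 - x ^ 2)) =ᶠ[𝓝 h]
        fun x => deriv A x * (1 - x ^ 2) - 2 * x * A x := by
      filter_upwards [Icc_mem_nhds hh.1 hh.2] with x hx using dP x hx
    rw [e.deriv_eq]
    exact (((dA2.mul (dL h)).sub (((hasDerivAt_id' h).const_mul 2).mul dA)).congr_deriv
      (by ring)).deriv
  have dZ : deriv (fun x => (1 - x ^ 2) / SS A B x) h = (-(2 * h) * SS A B h - (1 - h ^ 2) *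
      (deriv A h + deriv B h * (1 - h ^ 2) - 2 * h * B h)) / SS A B h ^ 2 :=
    ((dL h).div dS hS).deriv
  have d1 : deriv (cw W) h = (deriv (deriv W) h * W h - deriv W h ^ 2) / (2 * W h ^ 2) :=
    ((dW2.div (dW.const_mul 2) (mul_ne_zero two_ne_zero hW)).congr_deriv
      (by field_simp)).deriv
  have d2 : deriv (cw A) h = (deriv (deriv A) h * A h - deriv A h ^ 2) / (2 * A h ^ 2) :=
    ((dA2.div (dA.const_mul 2) (mul_ne_zero two_ne_zero hA)).congr_deriv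
      (by field_simp)).deriv
  have d3 : deriv (cb1 W A B) h = -(deriv (deriv W) h * SS A B h - deriv W h *
      (deriv A h + deriv B h * (1 - h ^ 2) - 2 * h * B h)) / (2 * SS A B h ^ 2) :=
    ((dW2.neg.div (dS.const_mul 2) (mul_ne_zero two_ne_zero hS)).congr_deriv
      (by simp only [Pi.neg_apply]; field_simp; ring)).deriv
  have d4 : deriv (cb A B) h = -((deriv (deriv A) h + 2 * deriv B h * h + 2 * B h) * SS A B h -
      (deriv A h + 2 * B h * h) * (deriv A h + deriv B h * (1 - h ^ 2) - 2 * h * B h)) /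
        (2 * SS A B h ^ 2) :=
    (((dA2.add ((dB.const_mul 2).mul (hasDerivAt_id' h))).neg.div (dS.const_mul 2)
      (mul_ne_zero two_ne_zero hS)).congr_deriv
      (by simp only [Pi.neg_apply, Pi.add_apply, Pi.mul_apply]; field_simp; ring)).deriv
  simp only [fa, fb, fc, R1, R2, R3, dP h hc, dP2, dZ, d1, d2, d3, d4]
  exact ⟨alg1 q h _ _ _ _ _ _ _ _ hW hA hS hL rfl, alg2 q h _ _ _ _ _ _ _ _ hW hA hS hL rfl,
    alg3 q h _ _ _ _ _ _ _ _ _ hW hA hS hL rfl⟩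

end SProf

lemma SmH.sm {a T : ℝ} {F : ℝ → ℝ → ℝ} (hF : SmH a T F) {t : ℝ} (ht : t ∈ Ioo a T) : Sm (F t) :=
  fun h hh => (hF t ht h hh).comp h (contDiffAt_const.prodMk contDiffAt_id)

lemma SmH.hasDerivAt_t {a T : ℝ} {F : ℝ → ℝ → ℝ} (hF : SmH a T F) {t : ℝ} (ht : t ∈ Ioo a T)
    {h : ℝ} (hh : h ∈ Icc (-1 : ℝ) 1) : HasDerivAt (fun s => F s h)
      (fderiv ℝ (fun p : ℝ × ℝ => F p.1 p.2) (t, h) (1, 0)) t := by
  have h1 := ((hF t ht h hh).differentiableAt (by simp)).hasFDerivAt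
  have h2 : HasDerivAt (fun s : ℝ => (s, h)) ((1 : ℝ), (0 : ℝ)) t :=
    (hasDerivAt_id' t).prodMk (hasDerivAt_const t h)
  exact HasFDerivAt.comp_hasDerivAt (f := fun s : ℝ => (s, h)) t h1 h2

lemma SmH.cont_t {a T : ℝ} {F : ℝ → ℝ → ℝ} (hF : SmH a T F) {t : ℝ} (ht : t ∈ Ioo a T) :
    ContinuousOn (fun h => deriv (fun s => F s h) t) (Icc (-1 : ℝ) 1) := by
  refine ContinuousOn.congr (f := fun h => fderiv ℝ (fun p : ℝ × ℝ => F p.1 p.2) (t, h) (1, 0))
    (fun h hh => ?_) fun h hh => (hF.hasDerivAt_t ht hh).deriv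
  have h1 : ContinuousAt (fderiv ℝ (fun p : ℝ × ℝ => F p.1 p.2)) (t, h) :=
    ((hF t ht h hh).fderiv_right (m := ∞) (le_of_eq rfl)).continuousAt
  have h2 : ContinuousAt (fun h : ℝ => fderiv ℝ (fun p : ℝ × ℝ => F p.1 p.2) (t, h)) h :=
    ContinuousAt.comp (f := fun h : ℝ => (t, h)) h1 (by fun_prop)
  exact (h2.clm_apply continuousAt_const).continuousWithinAt

lemma eq_Icc {f g : ℝ → ℝ} (hf : ContinuousOn f (Icc (-1 : ℝ) 1))
    (hg : ContinuousOn g (Icc (-1 : ℝ) 1)) (h : ∀ x ∈ Ioo (-1 : ℝ) 1, f x = g x) :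
    ∀ x ∈ Icc (-1 : ℝ) 1, f x = g x :=
  Set.EqOn.of_subset_closure (s := Ioo (-1 : ℝ) 1) h hf hg Ioo_subset_Icc_self
    (by rw [closure_Ioo (by norm_num)])

lemma sum_e1 (n : ℕ) : ∑ k, e1 n k = 2 := by
  rw [Fin.sum_univ_add]
  have h1 : ∀ i : Fin 2, e1 n (Fin.castAdd n i) = 1 := fun i => if_pos i.2
  have h2 : ∀ i : Fin n, e1 n (Fin.natAdd 2 i) = 0 := fun i => if_neg (by simp; omega)
  simp [h1, h2]

lemma sum_co_e1 (n : ℕ) : ∑ k, co (e1 n) k = n := by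
  simp only [co, Finset.sum_sub_distrib, sum_e1]; simp

namespace RedFlow

variable {q : ℕ} {a T : ℝ} {W A B : ℝ → ℝ → ℝ}

lemma sprof (F : RedFlow q a T W A B) {t : ℝ} (ht : t ∈ Ioo a T) : SProf (W t) (A t) (B t) :=
  ⟨F.smW.sm ht, F.smA.sm ht, F.smB.sm ht, F.posW t ht, F.posA t ht, F.posS t ht⟩

lemma dt_interior (F : RedFlow q a T W A B) {t : ℝ} (ht : t ∈ Ioo a T) {h : ℝ}
    (hh : h ∈ Ioo (-1 : ℝ) 1) :
    deriv (fun s => W s h) t = -2 * R1 q (W t) (A t) (B t) h ∧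
    deriv (fun s => A s h) t = -2 * R2 q (W t) (A t) (B t) h ∧
    deriv (fun s => B s h) t = -2 * R3 q (W t) (A t) (B t) h := by
  have hc : h ∈ Icc (-1 : ℝ) 1 := Ioo_subset_Icc_self hh
  have hL : 1 - h ^ 2 ≠ 0 := by nlinarith [hh.1, hh.2]
  obtain ⟨i1, i2, i3⟩ := (F.sprof ht).interior q hh
  obtain ⟨e1, e2, e3⟩ := F.eqs t ht h hh
  have hS : A t h + B t h * (1 - h ^ 2) ≠ 0 := (F.posS t ht h hc).ne'
  have dA := (F.smA.hasDerivAt_t ht hc).differentiableAt.hasDerivAt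
  have dB := (F.smB.hasDerivAt_t ht hc).differentiableAt.hasDerivAt
  have p1 : deriv (fun s => redP A s h) t = deriv (fun s => A s h) t * (1 - h ^ 2) :=
    (dA.mul_const _).deriv
  have p2 : deriv (fun s => redZ A B s h) t = -((1 - h ^ 2) * (deriv (fun s => A s h) t +
      deriv (fun s => B s h) t * (1 - h ^ 2))) / (A t h + B t h * (1 - h ^ 2)) ^ 2 :=
    (((hasDerivAt_const t (1 - h ^ 2)).div (dA.add (dB.mul_const (1 - h ^ 2))) hS).congr_deriv
      (by simp)).deriv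
  rw [p1] at e2
  rw [p2] at e3
  simp only [zero_mul, add_zero, deriv_const', mul_zero, sub_zero] at e1 e2 e3
  change fa q (W t) (redP A t) (redZ A B t) h * _ = _ at i1
  change fb q (W t) (redP A t) (redZ A B t) h * _ = _ at i2
  change fc q (W t) (redP A t) (redZ A B t) h * (A t h + B t h * (1 - h ^ 2)) = _ at i3
  have a2 : deriv (fun s => A s h) t = -2 * R2 q (W t) (A t) (B t) h := by
    refine mul_right_cancel₀ hL ?_
    rw [e2, ← i2]; simp only [redP]; ring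
  refine ⟨by rw [e1, ← i1]; ring, a2, ?_⟩
  have e4 : redZ A B t h = (1 - h ^ 2) / (A t h + B t h * (1 - h ^ 2)) := rfl
  rw [e4] at e3
  generalize A t h + B t h * (1 - h ^ 2) = S at e3 i3 hS
  generalize fc q (W t) (redP A t) (redZ A B t) h = c at e3 i3
  generalize 1 - h ^ 2 = L at e3 i3 hL
  field_simp at e3
  refine mul_right_cancel₀ hL ?_
  linear_combination (-1) * e3 - 2 * i3 - a2

lemma dt_all (F : RedFlow q a T W A B) {t : ℝ} (ht : t ∈ Ioo a T) {h : ℝ}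
    (hh : h ∈ Icc (-1 : ℝ) 1) :
    deriv (fun s => W s h) t = -2 * R1 q (W t) (A t) (B t) h ∧
    deriv (fun s => A s h) t = -2 * R2 q (W t) (A t) (B t) h ∧
    deriv (fun s => B s h) t = -2 * R3 q (W t) (A t) (B t) h :=
  ⟨eq_Icc (F.smW.cont_t ht) (continuousOn_const.mul ((F.sprof ht).cR1 q))
      (fun _ hx => (F.dt_interior ht hx).1) h hh,
    eq_Icc (F.smA.cont_t ht) (continuousOn_const.mul ((F.sprof ht).cR2 q))
      (fun _ hx => (F.dt_interior ht hx).2.1) h hh,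
    eq_Icc (F.smB.cont_t ht) (continuousOn_const.mul ((F.sprof ht).cR3 q))
      (fun _ hx => (F.dt_interior ht hx).2.2) h hh⟩

lemma ricci_eq (F : RedFlow q a T W A B) {t : ℝ} (ht : t ∈ Ioo a T) {l : Fin (2 + (q + 1)) → ℝ}
    {h0 : ℝ} (H : Blk (e1 (q + 1)) l h0) (i j : Fin (2 + (q + 1))) :
    ricci (Gm (e1 (q + 1)) l h0 (W t) (A t) (B t)) 0 i j =
      dl i j * (e1 (q + 1) i * R1 q (W t) (A t) (B t) h0 +
        co (e1 (q + 1)) i * R2 q (W t) (A t) (B t) h0) + R3 q (W t) (A t) (B t) h0 * (l i * l j) := by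
  have P := F.sprof ht
  have hm := H.h0_mem
  exact H.ricci_Gm (n := (q : ℝ) + 1) (sum_e1 _) (by rw [sum_co_e1]; push_cast; ring) P.prof
    (P.scwW.diff hm).hasDerivAt (P.scwA.diff hm).hasDerivAt (P.scb1.diff hm).hasDerivAt
    (P.scb.diff hm).hasDerivAt (P.scc.diff hm).hasDerivAt i j

theorem chartFlow (F : RedFlow q a T W A B) : ChartFlow q a T W A B := by
  refine ⟨fun l h0 hA t ht i j => ?_, ?_, fun K => ?_⟩
  · have H := hA.toBlk
    have hm := H.h0_mem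
    obtain ⟨e1, e2, e3⟩ := F.dt_all ht hm
    have dW := (F.smW.hasDerivAt_t ht hm).differentiableAt.hasDerivAt
    have dA := (F.smA.hasDerivAt_t ht hm).differentiableAt.hasDerivAt
    have dB := (F.smB.hasDerivAt_t ht hm).differentiableAt.hasDerivAt
    simp only [H.Gm_zero]
    rw [F.ricci_eq ht H]
    refine ((((dW.const_mul _).add (dA.const_mul _)).const_mul _).add (dB.mul_const _)).deriv.trans ?_
    rw [e1, e2, e3]; ring
  · obtain ⟨C, hC⟩ := F.scal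
    refine ⟨C, fun l h0 hA t ht => ?_⟩
    have H := hA.toBlk
    have P := F.sprof ht
    rw [H.scalar_Gm (n := (q : ℝ) + 1) (sum_e1 _) (by rw [sum_co_e1]; push_cast; ring) P.prof
      (F.ricci_eq ht H)]
    have hc : ContinuousOn (fun h => |2 * (R1 q (W t) (A t) (B t) h / W t h) +
        ((q : ℝ) + 1 - 1) * (R2 q (W t) (A t) (B t) h / A t h) + (R2 q (W t) (A t) (B t) h +
          R3 q (W t) (A t) (B t) h * (1 - h ^ 2)) / SS (A t) (B t) h|) (Icc (-1 : ℝ) 1) := by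
      refine ContinuousOn.abs (ContinuousOn.add (ContinuousOn.add
        (continuousOn_const.mul ((P.cR1 q).div P.sW.cont fun h hh => (P.pW h hh).ne'))
        (continuousOn_const.mul ((P.cR2 q).div P.sA.cont fun h hh => (P.pA h hh).ne')))
        (((P.cR2 q).add ((P.cR3 q).mul (by fun_prop))).div P.sS.cont fun h hh => (P.pS h hh).ne'))
    have hcl : h0 ∈ closure (Ioo (-1 : ℝ) 1) := by
      rw [closure_Ioo (by norm_num)]; exact H.h0_mem
    have key := ContinuousWithinAt.closure_le (g := fun _ => C) hcl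
      ((hc h0 H.h0_mem).mono Ioo_subset_Icc_self) continuousWithinAt_const
    refine key fun h hh => ?_
    have hc' : h ∈ Icc (-1 : ℝ) 1 := Ioo_subset_Icc_self hh
    obtain ⟨i1, i2, i3⟩ := P.interior q hh
    have hW := (P.pW h hc').ne'
    have hA := (P.pA h hc').ne'
    have hS := (P.pS h hc').ne'
    rw [← i3, ← i1, ← i2, mul_div_cancel_right₀ _ hW, mul_div_cancel_right₀ _ hA,
      mul_div_cancel_right₀ _ hS, add_sub_cancel_right]
    exact hC t ht h hh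
  · have hpos : 0 < (|K| + 1)⁻¹ := by positivity
    have hev : ∀ᶠ t in 𝓝[<] T, W t (-1) < min 1 (|K| + 1)⁻¹ ∧ a < t :=
      (F.tip.eventually (gt_mem_nhds (lt_min one_pos hpos))).and
        (mem_nhdsWithin_of_mem_nhds (lt_mem_nhds F.lt))
    obtain ⟨t₀, ht₀, hsub⟩ := mem_nhdsLT_iff_exists_Ioo_subset.1 hev
    refine ⟨t₀, ht₀, fun t h1 h2 l hA => ?_⟩
    obtain ⟨hw, hat⟩ := hsub ⟨h1, h2⟩
    have ht : t ∈ Ioo a T := ⟨hat, h2⟩
    have H := hA.toBlk
    have hm := H.h0_mem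
    have P := F.sprof ht
    have h3 := H.rm_pole (by norm_num) P.prof (P.scwW.diff hm).hasDerivAt
      (P.scwA.diff hm).hasDerivAt (P.scb1.diff hm).hasDerivAt (P.scb.diff hm).hasDerivAt
      (P.scc.diff hm).hasDerivAt (i := ⟨0, by omega⟩) (j := ⟨1, by omega⟩) (by simp)
      (by simp [e1]) (by simp [e1])
    refine lt_of_lt_of_le ?_ h3
    have hW := P.pW _ hm
    have h4 : |K| + 1 < (W t (-1))⁻¹ := by
      rw [lt_inv_comm₀ (by positivity) hW]; exact hw.trans_le (min_le_right _ _)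
    have h5 := le_abs_self K
    have h6 := abs_nonneg K
    nlinarith

end RedFlow

/-- **G1**. -/
theorem g1 : G1 := fun _ _ _ _ _ _ F => F.chartFlow

end Crest.Agent.N207.S.Geo

end
end

-- ▼ part N207/S/Gc2
section

/-!
Row 207, S0320, geometry part G3 (helper49), file 2: two-variable calculus and the invariance of
the reduced Ricci flow equations under a time dependent change of the orbit coordinate.
-/

set_option autoImplicit false

open scoped ContDiff Topology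
open Set Filter

noncomputable section

namespace Crest.Agent.N207.S.Gc

open Geo

theorem ev_diff {E : Type} [NormedAddCommGroup E] [NormedSpace ℝ E] {f : E → ℝ} {x : E}
    (h : ContDiffAt ℝ ∞ f x) : ∀ᶠ y in 𝓝 x, DifferentiableAt ℝ f y :=
  ((h.of_le (m := 1) (by exact_mod_cast le_top)).eventually (by simp)).mono
    fun _ hy => hy.differentiableAt one_ne_zero

theorem cd_fd {E : Type} [NormedAddCommGroup E] [NormedSpace ℝ E] {f : E → ℝ} {x : E}
    (h : ContDiffAt ℝ ∞ f x) : ContDiffAt ℝ ∞ (fderiv ℝ f) x :=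
  h.fderiv_right (m := ∞) (by simp)

theorem cd_deriv {f : ℝ → ℝ} {x : ℝ} (h : ContDiffAt ℝ ∞ f x) : ContDiffAt ℝ ∞ (deriv f) x :=
  (cd_fd h).clm_apply (g := fun _ => (1 : ℝ)) contDiffAt_const

theorem hd_of {f : ℝ → ℝ} {x : ℝ} (h : ContDiffAt ℝ ∞ f x) : HasDerivAt f (deriv f x) x :=
  (h.differentiableAt (by simp)).hasDerivAt

theorem hd_comp {f φ : ℝ → ℝ} {f' φ' x : ℝ} (hf : HasDerivAt f f' (φ x)) (hφ : HasDerivAt φ φ' x) :
    HasDerivAt (fun y => f (φ y)) (f' * φ') x := hf.comp x hφ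

/-- uncurried function -/
abbrev un (F : ℝ → ℝ → ℝ) : ℝ × ℝ → ℝ := fun p => F p.1 p.2

theorem hd_x {F : ℝ → ℝ → ℝ} {t x : ℝ} (h : DifferentiableAt ℝ (un F) (t, x)) :
    HasDerivAt (F t) (fderiv ℝ (un F) (t, x) (0, 1)) x :=
  h.hasFDerivAt.comp_hasDerivAt (f := fun y : ℝ => ((t, y) : ℝ × ℝ)) x
    ((hasDerivAt_const x t).prodMk (hasDerivAt_id x))

theorem hd_t {F : ℝ → ℝ → ℝ} {t x : ℝ} (h : DifferentiableAt ℝ (un F) (t, x)) :
    HasDerivAt (fun s => F s x) (fderiv ℝ (un F) (t, x) (1, 0)) t :=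
  h.hasFDerivAt.comp_hasDerivAt (f := fun s : ℝ => ((s, x) : ℝ × ℝ)) t
    ((hasDerivAt_id t).prodMk (hasDerivAt_const t x))

theorem cd_x {F : ℝ → ℝ → ℝ} {t x : ℝ} (h : ContDiffAt ℝ ∞ (un F) (t, x)) :
    ContDiffAt ℝ ∞ (F t) x :=
  h.comp (f := fun y : ℝ => ((t, y) : ℝ × ℝ)) x (contDiffAt_const.prodMk contDiffAt_id)

theorem cd_t {F : ℝ → ℝ → ℝ} {t x : ℝ} (h : ContDiffAt ℝ ∞ (un F) (t, x)) :
    ContDiffAt ℝ ∞ (fun s => F s x) t :=
  h.comp (f := fun s : ℝ => ((s, x) : ℝ × ℝ)) t (contDiffAt_id.prodMk contDiffAt_const)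

theorem tend_x (t x : ℝ) : Tendsto (fun y : ℝ => ((t, y) : ℝ × ℝ)) (𝓝 x) (𝓝 (t, x)) :=
  (continuous_const.prodMk continuous_id).tendsto x

theorem tend_t (t x : ℝ) : Tendsto (fun s : ℝ => ((s, x) : ℝ × ℝ)) (𝓝 t) (𝓝 (t, x)) :=
  (continuous_id.prodMk continuous_const).tendsto t

/-- the space derivative of a smooth function is smooth -/
theorem cd_dx {F : ℝ → ℝ → ℝ} {p : ℝ × ℝ} (h : ContDiffAt ℝ ∞ (un F) p) :
    ContDiffAt ℝ ∞ (un fun s y => deriv (F s) y) p := by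
  refine ((cd_fd h).clm_apply (g := fun _ => ((0, 1) : ℝ × ℝ))
    contDiffAt_const).congr_of_eventuallyEq ?_
  filter_upwards [ev_diff h] with r hr using (hd_x (t := r.1) (x := r.2) hr).deriv

/-- chain rule along a curve -/
theorem chain {F : ℝ → ℝ → ℝ} {g : ℝ → ℝ} {g' t : ℝ} (h : ContDiffAt ℝ ∞ (un F) (t, g t))
    (hg : HasDerivAt g g' t) :
    HasDerivAt (fun s => F s (g s)) (deriv (fun s => F s (g t)) t + g' * deriv (F t) (g t)) t := by
  have hd := h.differentiableAt (by simp)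
  have h1 := hd.hasFDerivAt.comp_hasDerivAt (f := fun s : ℝ => ((s, g s) : ℝ × ℝ)) t
    ((hasDerivAt_id t).prodMk hg)
  rw [(hd_t hd).deriv, (hd_x hd).deriv]
  refine HasDerivAt.congr_deriv h1 ?_
  rw [show ((1, g') : ℝ × ℝ) = (1, 0) + g' • (0, 1) by simp, map_add, map_smul, smul_eq_mul]

/-- symmetry of the mixed derivative -/
theorem mixed {F : ℝ → ℝ → ℝ} {t x : ℝ} (h : ContDiffAt ℝ ∞ (un F) (t, x)) :
    HasDerivAt (fun s => deriv (F s) x) (deriv (fun y => deriv (fun s => F s y) t) x) t := by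
  have hs : IsSymmSndFDerivAt ℝ (un F) (t, x) :=
    h.isSymmSndFDerivAt (by rw [minSmoothness_of_isRCLikeNormedField]; decide)
  have hD := ((cd_fd h).differentiableAt (by simp)).hasFDerivAt
  have h1 := (hD.comp_hasDerivAt (f := fun s : ℝ => ((s, x) : ℝ × ℝ)) t
    ((hasDerivAt_id t).prodMk (hasDerivAt_const t x))).clm_apply
    (hasDerivAt_const t ((0, 1) : ℝ × ℝ))
  have h2 := (hD.comp_hasDerivAt (f := fun y : ℝ => ((t, y) : ℝ × ℝ)) x
    ((hasDerivAt_const x t).prodMk (hasDerivAt_id x))).clm_apply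
    (hasDerivAt_const x ((1, 0) : ℝ × ℝ))
  have e1 : (fun s => deriv (F s) x) =ᶠ[𝓝 t] fun s => fderiv ℝ (un F) (s, x) (0, 1) := by
    filter_upwards [(tend_t t x).eventually (ev_diff h)] with s hs using (hd_x hs).deriv
  have e2 : (fun y => deriv (fun s => F s y) t) =ᶠ[𝓝 x] fun y => fderiv ℝ (un F) (t, y) (1, 0) := by
    filter_upwards [(tend_x t x).eventually (ev_diff h)] with y hy using (hd_t hy).deriv
  rw [(h2.congr_of_eventuallyEq e2).deriv]
  refine HasDerivAt.congr_deriv (h1.congr_of_eventuallyEq e1) ?_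
  simp only [map_zero, add_zero]
  exact hs.eq _ _

/-- the linearised equation of a flow -/
theorem lin_ode {V φ : ℝ → ℝ → ℝ} {t h : ℝ} (hV : ContDiffAt ℝ ∞ (un V) (t, φ t h))
    (hφ : ContDiffAt ℝ ∞ (un φ) (t, h))
    (ho : ∀ᶠ p in 𝓝 (t, h), HasDerivAt (fun s => φ s p.2) (V p.1 (φ p.1 p.2)) p.1) :
    HasDerivAt (fun s => deriv (φ s) h) (deriv (V t) (φ t h) * deriv (φ t) h) t := by
  have e : (fun y => deriv (fun s => φ s y) t) =ᶠ[𝓝 h] fun y => V t (φ t y) := by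
    filter_upwards [(tend_x t h).eventually ho] with y hy using hy.deriv
  have h1 := mixed hφ
  rwa [e.deriv_eq, (hd_comp (hd_of (cd_x hV)) (hd_of (cd_x hφ))).deriv] at h1

theorem d_comp {f g φ : ℝ → ℝ} {h : ℝ} (hf : ContDiffAt ℝ ∞ f (φ h)) (hφ : ContDiffAt ℝ ∞ φ h)
    (e : g =ᶠ[𝓝 h] fun y => f (φ y)) :
    g h = f (φ h) ∧ deriv g h = deriv f (φ h) * deriv φ h ∧ deriv (deriv g) h =
      deriv (deriv f) (φ h) * deriv φ h ^ 2 + deriv f (φ h) * deriv (deriv φ) h := by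
  have e1 : deriv g =ᶠ[𝓝 h] fun y => deriv f (φ y) * deriv φ y := by
    filter_upwards [e.eventuallyEq_nhds, ev_diff hφ,
      hφ.continuousAt.tendsto.eventually (ev_diff hf)] with y h1 h2 h3
    rw [h1.deriv_eq]
    exact (h3.hasDerivAt.comp y h2.hasDerivAt).deriv
  refine ⟨e.eq_of_nhds, e1.eq_of_nhds, ?_⟩
  rw [e1.deriv_eq,
    ((hd_comp (hd_of (cd_deriv hf)) (hd_of hφ)).fun_mul (hd_of (cd_deriv hφ))).deriv]
  ring

theorem d_compZ {f g φ : ℝ → ℝ} {h : ℝ} (hf : ContDiffAt ℝ ∞ f (φ h)) (hφ : ContDiffAt ℝ ∞ φ h)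
    (h1 : deriv φ h ≠ 0) (e : g =ᶠ[𝓝 h] fun y => f (φ y) / deriv φ y ^ 2) :
    g h = f (φ h) / deriv φ h ^ 2 ∧ deriv g h =
      deriv f (φ h) / deriv φ h - 2 * f (φ h) * deriv (deriv φ) h / deriv φ h ^ 3 := by
  refine ⟨e.eq_of_nhds, ?_⟩
  rw [e.deriv_eq, ((hd_comp (hd_of hf) (hd_of hφ)).fun_div ((hd_of (cd_deriv hφ)).fun_pow 2)
    (pow_ne_zero 2 h1)).deriv]
  field_simp
  ring

theorem kS_inv (F F1 F2 Z Z1 e : ℝ) {c : ℝ} (hc : c ≠ 0) :
    kS F (F1 * c) (F2 * c ^ 2 + F1 * e) (Z / c ^ 2) (Z1 / c - 2 * Z * e / c ^ 3) =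
      kS F F1 F2 Z Z1 := by
  have h1 : Z / c ^ 2 * (F2 * c ^ 2 + F1 * e) + (Z1 / c - 2 * Z * e / c ^ 3) * (F1 * c) / 2 =
      Z * F2 + Z1 * F1 / 2 := by field_simp; ring
  have h2 : Z / c ^ 2 * (F1 * c) ^ 2 = Z * F1 ^ 2 := by field_simp
  rw [kS, kS, h1, h2]

theorem kT_inv (F F1 Z : ℝ) {c : ℝ} (hc : c ≠ 0) : kT F (F1 * c) (Z / c ^ 2) = kT F F1 Z := by
  have h2 : Z / c ^ 2 * (F1 * c) ^ 2 = Z * F1 ^ 2 := by field_simp
  rw [kT, kT, h2]

theorem kX_inv (W W1 P P1 Z : ℝ) {c : ℝ} (hc : c ≠ 0) :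
    kX W (W1 * c) P (P1 * c) (Z / c ^ 2) = kX W W1 P P1 Z := by
  have h2 : Z / c ^ 2 * (W1 * c) * (P1 * c) = Z * W1 * P1 := by field_simp
  rw [kX, kX, h2]

/-- the Ricci eigenvalues do not depend on the orbit coordinate -/
theorem f_inv (q : ℕ) {w p z w' p' z' φ : ℝ → ℝ} {h : ℝ} (hw : ContDiffAt ℝ ∞ w (φ h))
    (hp : ContDiffAt ℝ ∞ p (φ h)) (hz : ContDiffAt ℝ ∞ z (φ h)) (hφ : ContDiffAt ℝ ∞ φ h)
    (h1 : deriv φ h ≠ 0) (ew : w' =ᶠ[𝓝 h] fun y => w (φ y)) (ep : p' =ᶠ[𝓝 h] fun y => p (φ y))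
    (ez : z' =ᶠ[𝓝 h] fun y => z (φ y) / deriv φ y ^ 2) :
    fa q w' p' z' h = fa q w p z (φ h) ∧ fb q w' p' z' h = fb q w p z (φ h) ∧
      fc q w' p' z' h = fc q w p z (φ h) := by
  obtain ⟨a0, a1, a2⟩ := d_comp hw hφ ew
  obtain ⟨b0, b1, b2⟩ := d_comp hp hφ ep
  obtain ⟨c0, c1⟩ := d_compZ hz hφ h1 ez
  simp only [fa, fb, fc, ra, rb, rc, a0, a1, a2, b0, b1, b2, c0, c1, kS_inv _ _ _ _ _ _ h1,
    kT_inv _ _ _ h1, kX_inv _ _ _ _ _ h1, and_self]

/-- **passage to a material coordinate** -/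
theorem reparam (q : ℕ) {W P Z V W' P' Z' φ : ℝ → ℝ → ℝ} {t h : ℝ}
    (hW : ContDiffAt ℝ ∞ (un W) (t, φ t h)) (hP : ContDiffAt ℝ ∞ (un P) (t, φ t h))
    (hZ : ContDiffAt ℝ ∞ (un Z) (t, φ t h)) (hV : ContDiffAt ℝ ∞ (un V) (t, φ t h))
    (hφ : ContDiffAt ℝ ∞ (un φ) (t, h)) (h1 : deriv (φ t) h ≠ 0)
    (ho : ∀ᶠ p in 𝓝 (t, h), HasDerivAt (fun s => φ s p.2) (V p.1 (φ p.1 p.2)) p.1)
    (eW : ∀ᶠ p in 𝓝 (t, h), W' p.1 p.2 = W p.1 (φ p.1 p.2))
    (eP : ∀ᶠ p in 𝓝 (t, h), P' p.1 p.2 = P p.1 (φ p.1 p.2))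
    (eZ : ∀ᶠ p in 𝓝 (t, h), Z' p.1 p.2 = Z p.1 (φ p.1 p.2) / deriv (φ p.1) p.2 ^ 2) :
    fR q (W' t) (P' t) (Z' t) h = fR q (W t) (P t) (Z t) (φ t h) ∧
      (Eqs q W P Z V t (φ t h) → Eqs q W' P' Z' (fun _ _ => 0) t h) := by
  obtain ⟨ia, ib, ic⟩ := f_inv q (w' := W' t) (p' := P' t) (z' := Z' t) (cd_x hW) (cd_x hP)
    (cd_x hZ) (cd_x hφ) h1 ((tend_x t h).eventually eW) ((tend_x t h).eventually eP)
    ((tend_x t h).eventually eZ)
  refine ⟨by rw [fR, fR, ia, ib, ic], fun E => ?_⟩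
  have ho' : HasDerivAt (fun s => φ s h) (V t (φ t h)) t := ho.self_of_nhds
  have tW : (fun s => W' s h) =ᶠ[𝓝 t] fun s => W s (φ s h) := (tend_t t h).eventually eW
  have tP : (fun s => P' s h) =ᶠ[𝓝 t] fun s => P s (φ s h) := (tend_t t h).eventually eP
  have tZ : (fun s => Z' s h) =ᶠ[𝓝 t] fun s => Z s (φ s h) / deriv (φ s) h ^ 2 :=
    (tend_t t h).eventually eZ
  have pW : W' t h = W t (φ t h) := tW.eq_of_nhds
  have pP : P' t h = P t (φ t h) := tP.eq_of_nhds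
  have pZ : Z' t h = Z t (φ t h) / deriv (φ t) h ^ 2 := tZ.eq_of_nhds
  refine ⟨?_, ?_, ?_⟩
  · rw [tW.deriv_eq, (chain (g := fun s => φ s h) hW ho').deriv, ia, pW, ← E.eW]; ring
  · rw [tP.deriv_eq, (chain (g := fun s => φ s h) hP ho').deriv, ib, pP, ← E.eP]; ring
  · rw [tZ.deriv_eq, ((chain (g := fun s => φ s h) hZ ho').fun_div
      ((lin_ode hV hφ ho).fun_pow 2) (pow_ne_zero 2 h1)).deriv, ic, pZ, deriv_const,
      ← mul_div_assoc (2 * fc q _ _ _ _), ← E.eZ]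
    field_simp
    ring

end Crest.Agent.N207.S.Gc
end
end

-- ▼ part N207/S/Gc3
section

/-!
Row 207, S0320, geometry part G3 (helper49), file 3: the scalar ODE `ρ_t = G(t,h,ρ)`, `ρ(c,h) = 0`,
with a parameter `h`, and non-degeneracy of a one-dimensional flow.
-/

set_option autoImplicit false

open scoped ContDiff Topology
open Set Filter

noncomputable section

namespace Crest.Agent.N207.S.Gc

open Crest.Agent.Lib.ODEFlow

theorem mvt_abs {f f' : ℝ → ℝ} {s C : ℝ} (hf : ∀ r ∈ uIcc 0 s, HasDerivAt f (f' r) r)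
    (hb : ∀ r ∈ uIcc 0 s, |f' r| ≤ C) : |f s - f 0| ≤ C * |s| := by
  have := (convex_uIcc (0 : ℝ) s).norm_image_sub_le_of_norm_hasDerivWithin_le
    (fun r hr => (hf r hr).hasDerivWithinAt) hb left_mem_uIcc right_mem_uIcc
  simpa using this

/-- **parametrised scalar ODE** -/
theorem ex_ode {G : ℝ × ℝ × ℝ → ℝ} {U : Set (ℝ × ℝ × ℝ)} (hU : IsOpen U)
    (hG : ContDiffOn ℝ ∞ G U) {c T : ℝ} {H : Set ℝ}
    (hm : ∀ t ∈ Ico c T, ∀ h ∈ H, ∀ r, (t, h, r) ∈ U)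
    (hb : ∀ t < T, ∃ M, ∀ s ∈ Icc c t, ∀ h ∈ H, ∀ r, |G (s, h, r)| ≤ M) :
    ∃ ρ : ℝ → ℝ → ℝ, (∀ h, (c, h, (0 : ℝ)) ∈ U → ρ c h = 0) ∧ ∀ t ∈ Ico c T, ∀ h ∈ H,
      ContDiffAt ℝ ∞ (un ρ) (t, h) ∧ ∀ᶠ p in 𝓝 (t, h), (p.1, p.2, ρ p.1 p.2) ∈ U ∧
        HasDerivAt (fun s => ρ s p.2) (G (p.1, p.2, ρ p.1 p.2)) p.1 := by
  set vf : ℝ × ℝ × ℝ → ℝ × ℝ × ℝ := fun y => (1, 0, G y) with hvf
  have hv : ContDiffOn ℝ ∞ vf U := contDiffOn_const.prodMk (contDiffOn_const.prodMk hG)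
  have hv1 : ContDiffOn ℝ 1 vf U := hv.of_le (by exact_mod_cast le_top)
  have hd : ∀ {x : ℝ × ℝ × ℝ} {s : ℝ}, (x, s) ∈ dom vf U →
      HasDerivAt (fun r => (flow vf U (x, r)).1) 1 s ∧
      HasDerivAt (fun r => (flow vf U (x, r)).2.1) 0 s ∧
      HasDerivAt (fun r => (flow vf U (x, r)).2.2) (G (flow vf U (x, s))) s := fun h =>
    ⟨(hasDerivAt_flow hU hv1 h).fst, (hasDerivAt_flow hU hv1 h).snd.fst,
      (hasDerivAt_flow hU hv1 h).snd.snd⟩
  have hc : ∀ {x : ℝ × ℝ × ℝ} {s : ℝ}, (x, s) ∈ dom vf U →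
      flow vf U (x, s) = (x.1 + s, x.2.1, (flow vf U (x, s)).2.2) := by
    intro x s h
    have h0 := flow_zero hU hv1 (mem_of_mem_dom h)
    have h1 := mvt_abs (f := fun r => (flow vf U (x, r)).1 - r) (f' := fun _ => 0) (C := 0)
      (fun r hr => by simpa using (hd (mem_dom_of_uIcc h hr)).1.fun_sub (hasDerivAt_id' r))
      (fun _ _ => by simp)
    have h2 := mvt_abs (f := fun r => (flow vf U (x, r)).2.1) (f' := fun _ => 0) (C := 0)
      (fun r hr => (hd (mem_dom_of_uIcc h hr)).2.1) (fun _ _ => by simp)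
    simp only [zero_mul, abs_nonpos_iff, h0] at h1 h2
    refine Prod.ext ?_ (Prod.ext ?_ rfl)
    · show _ = x.1 + s
      linarith
    · show _ = x.2.1
      linarith
  have hex : ∀ t ∈ Ico c T, ∀ h ∈ H, (((c, h, (0 : ℝ)), t - c) : (ℝ × ℝ × ℝ) × ℝ) ∈ dom vf U := by
    intro t ht h hh
    obtain ⟨M, hM⟩ := hb t ht.2
    have hM0 : 0 ≤ M := (abs_nonneg _).trans (hM c ⟨le_rfl, ht.1⟩ h hh 0)
    have hcU : ((c, h, (0 : ℝ)) : ℝ × ℝ × ℝ) ∈ U := hm c ⟨le_rfl, ht.1.trans_lt ht.2⟩ h hh 0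
    refine mem_dom_of_compact hU hv1 (K := Icc c t ×ˢ {h} ×ˢ Icc (-(M * (t - c))) (M * (t - c)))
      (isCompact_Icc.prod (isCompact_singleton.prod isCompact_Icc)) ?_ hcU ?_ (sub_nonneg.2 ht.1)
    · rintro ⟨s, y, r⟩ ⟨h1, h2, -⟩
      obtain rfl : y = h := h2
      exact hm s ⟨h1.1, h1.2.trans_lt ht.2⟩ y hh r
    · intro s hs hd'
      have h1 := mvt_abs (f := fun r => (flow vf U ((c, h, (0 : ℝ)), r)).2.2) (C := M)
        (fun r hr => (hd (mem_dom_of_uIcc hd' hr)).2.2) (fun r hr => by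
          rw [hc (mem_dom_of_uIcc hd' hr)]
          rw [uIcc_of_le hs.1] at hr
          exact hM _ ⟨by linarith [hr.1], by linarith [hr.2, hs.2]⟩ h hh _)
      simp only [flow_zero hU hv1 hcU, sub_zero, abs_of_nonneg hs.1] at h1
      have h2 : M * s ≤ M * (t - c) := mul_le_mul_of_nonneg_left hs.2.le hM0
      rw [hc hd']
      exact ⟨⟨by linarith [hs.1], by linarith [hs.2]⟩, rfl, abs_le.1 (h1.trans h2)⟩
  have hι : ContDiff ℝ ∞ fun p : ℝ × ℝ => (((c, p.2, (0 : ℝ)), p.1 - c) : (ℝ × ℝ × ℝ) × ℝ) := by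
    fun_prop
  refine ⟨fun t h => (flow vf U ((c, h, 0), t - c)).2.2, fun h hh => ?_, fun t ht h hh => ⟨?_, ?_⟩⟩
  · simp only [sub_self, flow_zero hU hv1 hh]
  · have h1 := (contDiffOn_flow (n := ⊤) le_top hU hv).contDiffAt
      ((isOpen_dom hU hv1).mem_nhds (hex t ht h hh))
    exact (h1.comp (t, h) hι.contDiffAt).snd.snd
  · filter_upwards [(hι.continuous.tendsto (t, h)).eventually
      ((isOpen_dom hU hv1).mem_nhds (hex t ht h hh))] with p hp
    have h1 := hc hp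
    simp only [add_sub_cancel] at h1
    refine ⟨h1 ▸ flow_mem hU hv1 hp, ?_⟩
    have h2 := hd_comp (φ := fun s => s - c) (x := p.1) (hd hp).2.2
      ((hasDerivAt_id' p.1).sub_const c)
    rw [mul_one, h1] at h2
    exact h2

/-- a solution of a linear ODE with continuous coefficient does not vanish -/
theorem ne_zero_of_lin {η κ : ℝ → ℝ} {c t : ℝ} (hct : c ≤ t) (hκ : ContinuousOn κ (Icc c t))
    (hη : ∀ s ∈ Icc c t, HasDerivAt η (κ s * η s) s) (h0 : η c ≠ 0) : η t ≠ 0 := by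
  obtain ⟨M, hM⟩ := isCompact_Icc.exists_bound_of_continuousOn hκ
  have hd : ∀ s ∈ Icc c t, HasDerivAt (fun s => η s ^ 2 * Real.exp (2 * M * s))
      (2 * (κ s + M) * η s ^ 2 * Real.exp (2 * M * s)) s := by
    intro s hs
    refine HasDerivAt.congr_deriv (((hη s hs).fun_pow 2).fun_mul
      (((hasDerivAt_id' s).const_mul (2 * M)).exp)) ?_
    norm_num
    ring
  have hmono : MonotoneOn (fun s => η s ^ 2 * Real.exp (2 * M * s)) (Icc c t) := by
    refine monotoneOn_of_deriv_nonneg (convex_Icc c t)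
      (fun s hs => (hd s hs).continuousAt.continuousWithinAt)
      (fun s hs => (hd s (interior_subset hs)).differentiableAt.differentiableWithinAt)
      fun s hs => ?_
    rw [(hd s (interior_subset hs)).deriv]
    have h1 := (abs_le.1 (hM s (interior_subset hs))).1
    have h2 : 0 ≤ κ s + M := by linarith
    positivity
  intro h
  have h1 := hmono ⟨le_rfl, hct⟩ ⟨hct, le_rfl⟩ hct
  have h2 : 0 < η c ^ 2 * Real.exp (2 * M * c) := by positivity
  simp only [h] at h1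
  linarith [h1, h2, show (0 : ℝ) ^ 2 * Real.exp (2 * M * t) = 0 by simp]

/-- the flow of a one-dimensional vector field is a local diffeomorphism -/
theorem flow_ne {V φ : ℝ → ℝ → ℝ} {c t h : ℝ} (hct : c ≤ t)
    (hV : ∀ s ∈ Icc c t, ContDiffAt ℝ ∞ (un V) (s, φ s h))
    (hφ : ∀ s ∈ Icc c t, ContDiffAt ℝ ∞ (un φ) (s, h))
    (ho : ∀ s ∈ Icc c t, ∀ᶠ p in 𝓝 (s, h),
      HasDerivAt (fun s => φ s p.2) (V p.1 (φ p.1 p.2)) p.1)
    (h0 : deriv (φ c) h ≠ 0) : deriv (φ t) h ≠ 0 := by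
  refine ne_zero_of_lin (η := fun s => deriv (φ s) h) (κ := fun s => deriv (V s) (φ s h)) hct
    (fun s hs => ?_) (fun s hs => lin_ode (hV s hs) (hφ s hs) (ho s hs)) h0
  exact ((cd_dx (hV s hs)).continuousAt.comp (f := fun s => ((s, φ s h) : ℝ × ℝ))
    (continuousAt_id.prodMk (cd_t (hφ s hs)).continuousAt)).continuousWithinAt

end Crest.Agent.N207.S.Gc
end
end

-- ▼ part N207/S/Gc4

/-!
Row 207, S0320, geometry part G3 (helper49), file 4: `GaugeSol → RedFlow`.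
-/

set_option autoImplicit false

open scoped ContDiff Topology
open Set Filter

noncomputable section

namespace Crest.Agent.N207.S.Gc

open Geo

/-- `D = 1 - ξ0 + ξ0 e^ρ` -/
def Dn (h r : ℝ) : ℝ := (1 - h) / 2 + (1 + h) / 2 * Real.exp r

/-- `ξ = ξ0 e^ρ / D` -/
def xi (h r : ℝ) : ℝ := (1 + h) / 2 * Real.exp r / Dn h r

/-- `E = e^ρ / D²` -/
def Ef (h r : ℝ) : ℝ := Real.exp r / Dn h r ^ 2

theorem Dn_pos {h : ℝ} (hh : h ∈ Icc (-1 : ℝ) 1) (r : ℝ) : 0 < Dn h r := by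
  have := Real.exp_pos r
  rcases hh.2.eq_or_lt with rfl | h1
  · simp only [Dn]; linarith
  · have h2 : 0 ≤ (1 + h) / 2 * Real.exp r := mul_nonneg (by linarith [hh.1]) this.le
    simp only [Dn]; linarith

theorem Ef_pos {h r : ℝ} (hD : 0 < Dn h r) : 0 < Ef h r := by
  have := Real.exp_pos r
  unfold Ef; positivity

theorem one_sub_xi {h r : ℝ} (hD : 0 < Dn h r) : 1 - xi h r = (1 - h) / 2 / Dn h r := by
  rw [xi, eq_div_iff hD.ne', sub_mul, div_mul_cancel₀ _ hD.ne', Dn]; ring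

theorem xi_mul {h r : ℝ} (hD : 0 < Dn h r) : xi h r * (1 - xi h r) = (1 - h ^ 2) / 4 * Ef h r := by
  rw [one_sub_xi hD, xi, Ef]; field_simp; ring

theorem xi_Icc {h : ℝ} (hh : h ∈ Icc (-1 : ℝ) 1) (r : ℝ) : xi h r ∈ Icc (0 : ℝ) 1 := by
  have hD := Dn_pos hh r
  have h1 : 0 ≤ 1 + h := by linarith [hh.1]
  have h2 : 0 ≤ 1 - h := by linarith [hh.2]
  refine ⟨by unfold xi; positivity, sub_nonneg.1 ?_⟩
  rw [one_sub_xi hD]; positivity

theorem xi_Ioo {h : ℝ} (hh : h ∈ Ioo (-1 : ℝ) 1) (r : ℝ) : xi h r ∈ Ioo (0 : ℝ) 1 := by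
  have hD := Dn_pos (Ioo_subset_Icc_self hh) r
  have h1 : 0 < 1 + h := by linarith [hh.1]
  have h2 : 0 < 1 - h := by linarith [hh.2]
  refine ⟨by unfold xi; positivity, sub_pos.1 ?_⟩
  rw [one_sub_xi hD]; positivity

theorem hd_xi {η ρ : ℝ → ℝ} {η' ρ' s : ℝ} (hη : HasDerivAt η η' s) (hρ : HasDerivAt ρ ρ' s)
    (hD : 0 < Dn (η s) (ρ s)) : HasDerivAt (fun y => xi (η y) (ρ y))
      (Ef (η s) (ρ s) * (η' + (1 - η s ^ 2) / 2 * ρ') / 2) s := by
  have h1 := ((hη.const_add 1).div_const 2).fun_mul hρ.exp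
  have h2 := ((hη.const_sub 1).div_const 2).fun_add h1
  refine HasDerivAt.congr_deriv (h1.fun_div h2 hD.ne') ?_
  rw [Ef, Dn, mul_div_assoc (Real.exp (ρ s) / _), div_mul_eq_mul_div (Real.exp (ρ s))]
  congr 1
  ring

theorem cd_Dn : ContDiff ℝ ∞ (un Dn) := by
  show ContDiff ℝ ∞ fun p : ℝ × ℝ => (1 - p.1) / 2 + (1 + p.1) / 2 * Real.exp p.2
  fun_prop

theorem cd_xi {p : ℝ × ℝ} (hD : 0 < Dn p.1 p.2) : ContDiffAt ℝ ∞ (un xi) p :=
  ContDiffAt.div (f := fun p : ℝ × ℝ => (1 + p.1) / 2 * Real.exp p.2) (by fun_prop)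
    cd_Dn.contDiffAt hD.ne'

theorem cd_Ef {p : ℝ × ℝ} (hD : 0 < Dn p.1 p.2) : ContDiffAt ℝ ∞ (un Ef) p :=
  ContDiffAt.div (f := fun p : ℝ × ℝ => Real.exp p.2) (by fun_prop)
    (cd_Dn.contDiffAt.pow 2) (pow_ne_zero 2 hD.ne')

theorem SmC_at {a T : ℝ} {F : ℝ → ℝ → ℝ} (h : SmC a T F) {t x : ℝ} (ht : t ∈ Ioo a T)
    (hx : x ∈ Ioo (0 : ℝ) 1) : ContDiffAt ℝ ∞ (un F) (t, x) :=
  ContDiffOn.contDiffAt h (prod_mem_nhds (isOpen_Ioo.mem_nhds ht) (Icc_mem_nhds hx.1 hx.2))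

theorem bub_at (c : ℝ) {F : ℝ → ℝ → ℝ} {p : ℝ × ℝ} (h : ContDiffAt ℝ ∞ (un F) p) :
    ContDiffAt ℝ ∞ (un (bub c F)) p :=
  ContDiffAt.mul (f := fun p : ℝ × ℝ => c * (p.2 * (1 - p.2))) (by fun_prop) h

/-- the logit displacement `ρ` -/
theorem ex_rho {a T c : ℝ} {v : ℝ → ℝ → ℝ} (hv : SmC a T v) (hc : a < c) :
    ∃ ρ : ℝ → ℝ → ℝ, (∀ h ∈ Icc (-1 : ℝ) 1, ρ c h = 0) ∧
      (∀ t ∈ Ico c T, ∀ h ∈ Icc (-1 : ℝ) 1, ContDiffAt ℝ ∞ (un ρ) (t, h)) ∧
      ∀ t ∈ Ico c T, ∀ h ∈ Ioo (-1 : ℝ) 1, ∀ᶠ p in 𝓝 (t, h),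
        HasDerivAt (fun s => xi p.2 (ρ s p.2)) (bub 1 v p.1 (xi p.2 (ρ p.1 p.2))) p.1 := by
  obtain ⟨g, hg, eg⟩ := ext_Ioo hv
  have hU : IsOpen {y : ℝ × ℝ × ℝ | y.1 ∈ Ioo a T ∧ 0 < Dn y.2.1 y.2.2} :=
    (isOpen_Ioo.preimage continuous_fst).inter
      (isOpen_lt continuous_const (cd_Dn.continuous.comp continuous_snd))
  obtain ⟨ρ, h0, hρ⟩ := ex_ode (G := fun y => g (y.1, xi y.2.1 y.2.2)) hU
    (fun y hy => ((hg (y.1, xi y.2.1 y.2.2) hy.1).comp y
      (contDiffAt_fst.prodMk ((cd_xi hy.2).comp y contDiffAt_snd))).contDiffWithinAt)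
    (c := c) (T := T) (H := Icc (-1) 1)
    (fun t ht h hh r => ⟨⟨hc.trans_le ht.1, ht.2⟩, Dn_pos hh r⟩) (fun t ht => by
      obtain ⟨M, hM⟩ := (isCompact_Icc.prod isCompact_Icc).exists_bound_of_continuousOn
        (s := Icc c t ×ˢ Icc (0 : ℝ) 1) (f := g) fun p hp =>
          (hg p ⟨hc.trans_le hp.1.1, hp.1.2.trans_lt ht⟩).continuousAt.continuousWithinAt
      exact ⟨M, fun s hs h hh r => hM (s, xi h r) ⟨hs, xi_Icc hh r⟩⟩)
  rcases le_or_gt T c with hT | hT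
  · exact ⟨fun _ _ => 0, fun _ _ => rfl, fun t ht => absurd (ht.1.trans_lt ht.2) hT.not_gt,
      fun t ht => absurd (ht.1.trans_lt ht.2) hT.not_gt⟩
  refine ⟨ρ, fun h hh => h0 h ⟨⟨hc, hT⟩, Dn_pos hh 0⟩, fun t ht h hh => (hρ t ht h hh).1,
    fun t ht h hh => ?_⟩
  filter_upwards [(hρ t ht h (Ioo_subset_Icc_self hh)).2,
    (continuous_snd.tendsto (t, h)).eventually (isOpen_Ioo.mem_nhds hh)] with p hp h2
  refine HasDerivAt.congr_deriv (hd_xi (η := fun _ => p.2) (hasDerivAt_const p.1 p.2) hp.2 hp.1.2) ?_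
  rw [eg (p.1, xi p.2 (ρ p.1 p.2)) hp.1.1 (xi_Icc (Ioo_subset_Icc_self h2) _), bub, xi_mul hp.1.2]
  ring

/-- **G3** -/
theorem g3 : G3 := by
  intro q a T W X z Y v G
  obtain ⟨gW, cW, eW⟩ := ext_Ioo G.smW
  obtain ⟨gX, cX, eX⟩ := ext_Ioo G.smX
  obtain ⟨gz, cz, ez⟩ := ext_Ioo G.smz
  obtain ⟨gY, cY, eY⟩ := ext_Ioo G.smY
  have hlt := G.lt
  set c := (a + T) / 2 with hc
  have hac : a < c := by linarith
  have hcT : c < T := by linarith
  obtain ⟨ρ, h0, cρ, ho⟩ := ex_rho G.smv hac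
  set φ : ℝ → ℝ → ℝ := fun t h => xi h (ρ t h) with hφ
  have sub : ∀ t ∈ Ico c T, t ∈ Ioo a T := fun t ht => ⟨hac.trans_le ht.1, ht.2⟩
  have cι : ∀ t ∈ Ico c T, ∀ h ∈ Icc (-1 : ℝ) 1,
      ContDiffAt ℝ ∞ (fun p : ℝ × ℝ => (p.2, ρ p.1 p.2)) (t, h) := fun t ht h hh =>
    contDiffAt_snd.prodMk (cρ t ht h hh)
  have cφ : ∀ t ∈ Ico c T, ∀ h ∈ Icc (-1 : ℝ) 1, ContDiffAt ℝ ∞ (un φ) (t, h) := fun t ht h hh =>
    ContDiffAt.comp (g := un xi) (t, h) (cd_xi (p := (h, ρ t h)) (Dn_pos hh _)) (cι t ht h hh)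
  have cE : ∀ t ∈ Ico c T, ∀ h ∈ Icc (-1 : ℝ) 1,
      ContDiffAt ℝ ∞ (fun p : ℝ × ℝ => Ef p.2 (ρ p.1 p.2)) (t, h) := fun t ht h hh =>
    ContDiffAt.comp (g := un Ef) (t, h) (cd_Ef (p := (h, ρ t h)) (Dn_pos hh _)) (cι t ht h hh)
  have cg : ∀ {g : ℝ × ℝ → ℝ}, (∀ p : ℝ × ℝ, p.1 ∈ Ioo a T → ContDiffAt ℝ ∞ g p) →
      ∀ t ∈ Ico c T, ∀ h ∈ Icc (-1 : ℝ) 1,
        ContDiffAt ℝ ∞ (fun p : ℝ × ℝ => g (p.1, φ p.1 p.2)) (t, h) := fun hg t ht h hh =>
    (hg (t, φ t h) (sub t ht)).comp (t, h) (contDiffAt_fst.prodMk (cφ t ht h hh))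
  have dφ : ∀ t ∈ Ico c T, ∀ h ∈ Icc (-1 : ℝ) 1,
      deriv (φ t) h = Ef h (ρ t h) * (1 + (1 - h ^ 2) / 2 * deriv (ρ t) h) / 2 := fun t ht h hh =>
    (hd_xi (hasDerivAt_id' h) (hd_of (cd_x (cρ t ht h hh))) (Dn_pos hh _)).deriv
  have nφ : ∀ t ∈ Ico c T, ∀ h ∈ Ioo (-1 : ℝ) 1, deriv (φ t) h ≠ 0 := by
    intro t ht h hh
    have hs : ∀ s ∈ Icc c t, s ∈ Ico c T := fun s hs => ⟨hs.1, hs.2.trans_lt ht.2⟩
    refine flow_ne (V := bub 1 v) ht.1
      (fun s h1 => bub_at 1 (SmC_at G.smv (sub s (hs s h1)) (xi_Ioo hh _)))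
      (fun s h1 => cφ s (hs s h1) h (Ioo_subset_Icc_self hh)) (fun s h1 => ho s (hs s h1) h hh) ?_
    have e : ρ c =ᶠ[𝓝 h] fun _ => 0 := by
      filter_upwards [isOpen_Ioo.mem_nhds hh] with y hy using h0 y (Ioo_subset_Icc_self hy)
    rw [dφ c ⟨le_rfl, hcT⟩ h (Ioo_subset_Icc_self hh), e.deriv_eq, deriv_const]
    have := Ef_pos (Dn_pos (Ioo_subset_Icc_self hh) (ρ c h))
    rw [mul_zero]
    positivity
  have nσ : ∀ t ∈ Ico c T, ∀ h ∈ Icc (-1 : ℝ) 1, 1 + (1 - h ^ 2) / 2 * deriv (ρ t) h ≠ 0 := by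
    intro t ht h hh
    rcases hh.1.eq_or_lt with rfl | h1
    · norm_num
    rcases hh.2.eq_or_lt with rfl | h2
    · norm_num
    intro h3
    exact nφ t ht h ⟨h1, h2⟩ (by rw [dφ t ht h hh, h3]; simp)
  set A : ℝ → ℝ → ℝ := fun t h => Ef h (ρ t h) * gX (t, φ t h) with hA
  set B : ℝ → ℝ → ℝ := fun t h => Ef h (ρ t h) * (deriv (ρ t) h + (1 - h ^ 2) / 4 *
    deriv (ρ t) h ^ 2 + Ef h (ρ t h) * gY (t, φ t h) / 4) / gz (t, φ t h) with hB
  have eS : ∀ t ∈ Ico c T, ∀ h ∈ Icc (-1 : ℝ) 1, A t h + B t h * (1 - h ^ 2) =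
      Ef h (ρ t h) * (1 + (1 - h ^ 2) / 2 * deriv (ρ t) h) ^ 2 / z t (φ t h) := by
    intro t ht h hh
    have hx : φ t h ∈ Icc (0 : ℝ) 1 := xi_Icc hh _
    have h1 := G.pole t (sub t ht) _ hx
    have h2 := (G.posz t (sub t ht) _ hx).ne'
    rw [show φ t h * (1 - φ t h) = _ from xi_mul (Dn_pos hh _)] at h1
    simp only [hA, hB, eX (t, φ t h) (sub t ht) hx, eY (t, φ t h) (sub t ht) hx,
      ez (t, φ t h) (sub t ht) hx]
    field_simp
    linear_combination (-(16 : ℝ) * Ef h (ρ t h)) * h1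
  have key : ∀ t ∈ Ioo c T, ∀ h ∈ Ioo (-1 : ℝ) 1,
      fR q (fun h => gW (t, φ t h)) (redP A t) (redZ A B t) h =
        fR q (W t) (bub 4 X t) (bub 1 z t) (φ t h) ∧
      (Eqs q W (bub 4 X) (bub 1 z) (bub 1 v) t (φ t h) →
        Eqs q (fun t h => gW (t, φ t h)) (redP A) (redZ A B) (fun _ _ => 0) t h) := by
    intro t ht h hh
    have ht' := Ioo_subset_Ico_self ht
    have hx : φ t h ∈ Ioo (0 : ℝ) 1 := xi_Ioo hh _
    have hO : Ioo c T ×ˢ Ioo (-1 : ℝ) 1 ∈ 𝓝 (t, h) :=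
      prod_mem_nhds (isOpen_Ioo.mem_nhds ht) (isOpen_Ioo.mem_nhds hh)
    refine reparam q (W' := fun t h => gW (t, φ t h)) (SmC_at G.smW (sub t ht') hx)
      (bub_at 4 (SmC_at G.smX (sub t ht') hx)) (bub_at 1 (SmC_at G.smz (sub t ht') hx))
      (bub_at 1 (SmC_at G.smv (sub t ht') hx)) (cφ t ht' h (Ioo_subset_Icc_self hh))
      (nφ t ht' h hh) (ho t ht' h hh) ?_ ?_ ?_
    · filter_upwards [hO] with p hp
      exact eW (p.1, φ p.1 p.2) (sub _ (Ioo_subset_Ico_self hp.1))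
        (xi_Icc (Ioo_subset_Icc_self hp.2) _)
    · filter_upwards [hO] with p hp
      have h2 := Ioo_subset_Icc_self hp.2
      rw [redP, bub, show φ p.1 p.2 * (1 - φ p.1 p.2) = _ from xi_mul (Dn_pos h2 _)]
      simp only [hA, eX (p.1, φ p.1 p.2) (sub _ (Ioo_subset_Ico_self hp.1)) (xi_Icc h2 _)]
      ring
    · filter_upwards [hO] with p hp
      have h1 := Ioo_subset_Ico_self hp.1
      have h2 := Ioo_subset_Icc_self hp.2
      have h3 := (G.posz _ (sub _ h1) _ (show φ p.1 p.2 ∈ Icc (0 : ℝ) 1 from xi_Icc h2 _)).ne'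
      have h4 := nσ _ h1 _ h2
      have h5 := (Ef_pos (Dn_pos h2 (ρ p.1 p.2))).ne'
      rw [redZ, bub, show φ p.1 p.2 * (1 - φ p.1 p.2) = _ from xi_mul (Dn_pos h2 _), eS _ h1 _ h2,
        dφ _ h1 _ h2]
      generalize 1 + (1 - p.2 ^ 2) / 2 * deriv (ρ p.1) p.2 = σ at h4 ⊢
      field_simp
      ring
  refine ⟨c, fun t h => gW (t, φ t h), A, B, hcT, fun t ht h hh => cg cW t ⟨ht.1.le, ht.2⟩ h hh,
    fun t ht h hh => (cE t ⟨ht.1.le, ht.2⟩ h hh).mul (cg cX t ⟨ht.1.le, ht.2⟩ h hh),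
    fun t ht h hh => ?_, fun t ht h hh => ?_, fun t ht h hh => ?_, fun t ht h hh => ?_,
    fun t ht h hh => ?_, ?_, ?_⟩
  · have ht' := Ioo_subset_Ico_self ht
    have h1 := cd_dx (cρ t ht' h hh)
    have h2 := cE t ht' h hh
    refine (h2.mul ((h1.add (ContDiffAt.mul (f := fun p : ℝ × ℝ => (1 - p.2 ^ 2) / 4) (by fun_prop)
      (h1.pow 2))).add ((h2.mul (cg cY t ht' h hh)).div_const 4))).div (cg cz t ht' h hh) ?_
    show gz (t, φ t h) ≠ 0
    rw [ez (t, φ t h) (sub t ht') (xi_Icc hh _)]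
    exact (G.posz t (sub t ht') _ (xi_Icc hh _)).ne'
  · have ht' := Ioo_subset_Ico_self ht
    show 0 < gW (t, φ t h)
    rw [eW (t, φ t h) (sub t ht') (xi_Icc hh _)]
    exact G.posW t (sub t ht') _ (xi_Icc hh _)
  · have ht' := Ioo_subset_Ico_self ht
    refine mul_pos (Ef_pos (Dn_pos hh _)) ?_
    rw [eX (t, φ t h) (sub t ht') (xi_Icc hh _)]
    exact G.posX t (sub t ht') _ (xi_Icc hh _)
  · have ht' := Ioo_subset_Ico_self ht
    rw [eS t ht' h hh]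
    exact div_pos (mul_pos (Ef_pos (Dn_pos hh _)) (sq_pos_of_ne_zero (nσ t ht' h hh)))
      (G.posz t (sub t ht') _ (xi_Icc hh _))
  · exact (key t ht h hh).2 (G.eqs t (sub t (Ioo_subset_Ico_self ht)) _ (xi_Ioo hh _))
  · obtain ⟨C, hC⟩ := G.scal
    refine ⟨C, fun t ht h hh => ?_⟩
    rw [(key t ht h hh).1]
    exact hC t (sub t (Ioo_subset_Ico_self ht)) _ (xi_Ioo hh _)
  · refine G.tip.congr' ?_
    filter_upwards [Ioo_mem_nhdsLT hlt] with t ht
    have : φ t (-1) = 0 := by simp [hφ, xi]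
    rw [this, eW (t, 0) ht ⟨le_rfl, zero_le_one⟩]

end Crest.Agent.N207.S.Gc
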